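import Vale.Agent.N239X.Hm

set_option linter.all false

/-!
# The Euler characteristic of a finitely dominated complex
-/

namespace Vale.Agent.N239X

open scoped ENNReal
open LinearMap Module

variable {R : Type} [Ring R]

/-- the trace of an endomorphism -/
noncomputable def tau (t : R →+ ℝ) {ι M : Type} [Fintype ι] [AddCommGroup M] [Module R M]
    (b : Basis ι R M) (e : M →ₗ[R] M) : ℝ := ∑ i, t (b.repr (e (b i)) i)

/-- additive dimension functions -/
structure DimFn (R : Type) [Ring R] where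
  δ : ∀ (M : Type) [AddCommGroup M] [Module R M], ℝ≥0∞
  t : R →+ ℝ
  comm : ∀ a b, t (a * b) = t (b * a)
  congr : ∀ {M N : Type} [AddCommGroup M] [Module R M] [AddCommGroup N] [Module R N],
    (M ≃ₗ[R] N) → δ M = δ N
  add : ∀ {M : Type} [AddCommGroup M] [Module R M] (K : Submodule R M), δ K + δ (M ⧸ K) = δ M
  idem : ∀ {ι M : Type} [Fintype ι] [AddCommGroup M] [Module R M] (b : Basis ι R M)
    (e : M →ₗ[R] M), (∀ x, e (e x) = e x) →
      0 ≤ tau t b e ∧ δ (range e) = ENNReal.ofReal (tau t b e)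

section tau

variable {t : R →+ ℝ} {ι κ M N : Type} [Fintype ι] [Fintype κ] [AddCommGroup M] [Module R M]
  [AddCommGroup N] [Module R N]

theorem tau_comm (ht : ∀ a b, t (a * b) = t (b * a)) (b : Basis ι R M) (c : Basis κ R N)
    (f : N →ₗ[R] M) (g : M →ₗ[R] N) : tau t b (f ∘ₗ g) = tau t c (g ∘ₗ f) := by
  have h1 : ∀ i, b.repr (f (g (b i))) i = ∑ j, c.repr (g (b i)) j * b.repr (f (c j)) i := fun i => by
    conv_lhs => rw [← c.sum_repr (g (b i))]
    simp only [map_sum, map_smul, Finsupp.finsetSum_apply, Finsupp.smul_apply, smul_eq_mul]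
  have h2 : ∀ j, c.repr (g (f (c j))) j = ∑ i, b.repr (f (c j)) i * c.repr (g (b i)) j := fun j => by
    conv_lhs => rw [← b.sum_repr (f (c j))]
    simp only [map_sum, map_smul, Finsupp.finsetSum_apply, Finsupp.smul_apply, smul_eq_mul]
  simp only [tau, comp_apply, h1, h2, map_sum]
  rw [Finset.sum_comm]
  exact Finset.sum_congr rfl fun j _ => Finset.sum_congr rfl fun i _ => ht _ _

theorem tau_add (b : Basis ι R M) (e e' : M →ₗ[R] M) :
    tau t b (e + e') = tau t b e + tau t b e' := by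
  simp [tau, Finset.sum_add_distrib]

theorem tau_sub (b : Basis ι R M) (e e' : M →ₗ[R] M) :
    tau t b (e - e') = tau t b e - tau t b e' := by
  simp [tau]

end tau

theorem tau_htp {t : R →+ ℝ} (ht : ∀ a b, t (a * b) = t (b * a)) {F ι : ℕ → Type}
    [∀ k, AddCommGroup (F k)] [∀ k, Module R (F k)] [∀ k, Fintype (ι k)]
    (b : ∀ k, Basis (ι k) R (F k)) (d : ∀ k, F (k + 1) →ₗ[R] F k) (s : ∀ k, F k →ₗ[R] F (k + 1))
    (e e' : ∀ k, F k →ₗ[R] F k) (h0 : e 0 - e' 0 = d 0 ∘ₗ s 0)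
    (hs : ∀ k, e (k + 1) - e' (k + 1) = d (k + 1) ∘ₗ s (k + 1) + s k ∘ₗ d k) (m : ℕ)
    (hm : IsEmpty (ι (m + 1))) : ∑ k ∈ Finset.range (m + 1), (-1) ^ k * tau t (b k) (e k) =
      ∑ k ∈ Finset.range (m + 1), (-1) ^ k * tau t (b k) (e' k) := by
  have key : ∀ N, ∑ k ∈ Finset.range (N + 1), (-1) ^ k * tau t (b k) (e k) -
      ∑ k ∈ Finset.range (N + 1), (-1) ^ k * tau t (b k) (e' k) =
      (-1) ^ N * tau t (b N) (d N ∘ₗ s N) := fun N => by
    induction N with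
    | zero => simp [← tau_sub, h0]
    | succ N ih =>
      have := congrArg (tau t (b (N + 1))) (hs N)
      rw [tau_sub, tau_add, tau_comm ht (b (N + 1)) (b N) (s N)] at this
      rw [Finset.sum_range_succ _ (N + 1), Finset.sum_range_succ _ (N + 1), pow_succ]
      linear_combination ih + (-1) ^ N * (-1) * this
  have := key m
  rw [tau_comm ht (b m) (b (m + 1)), tau, Fintype.sum_empty, mul_zero] at this
  exact sub_eq_zero.1 this

namespace DimFn

variable (D : DimFn R) {M N : Type} [AddCommGroup M] [Module R M] [AddCommGroup N] [Module R N]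

theorem ker_add (f : M →ₗ[R] N) : D.δ (ker f) + D.δ (range f) = D.δ M := by
  rw [← D.congr f.quotKerEquivRange, D.add]

theorem quo {Z B : Submodule R M} (g : Z →ₗ[R] N) {W : Submodule R N} (h1 : range g = W)
    (h2 : ∀ z : Z, g z = 0 ↔ z.1 ∈ B) : D.δ (Z ⧸ B.submoduleOf Z) = D.δ W := by
  have : B.submoduleOf Z = ker g := Submodule.ext fun z => (h2 z).symm
  rw [this, ← h1]
  exact D.congr g.quotKerEquivRange

theorem quo_top (B : Submodule R M) :
    D.δ ((⊤ : Submodule R M) ⧸ B.submoduleOf ⊤) = D.δ (M ⧸ B) := by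
  rw [D.quo (B.mkQ ∘ₗ Submodule.subtype ⊤) (W := ⊤) (B := B), D.congr Submodule.topEquiv]
  · rw [range_eq_top]
    exact B.mkQ_surjective.comp fun x => ⟨⟨x, trivial⟩, rfl⟩
  · exact fun z => Submodule.Quotient.mk_eq_zero B

theorem zero [Subsingleton M] : D.δ M = 0 := by
  have := (D.idem (Basis.empty M : Basis Empty R M) LinearMap.id fun _ => rfl).2
  rwa [range_id, D.congr Submodule.topEquiv, tau, Fintype.sum_empty, ENNReal.ofReal_zero] at this

end DimFn

/-- finite dominations -/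
structure Dm (R : Type) [Ring R] where
  C : ℕ → ModuleCat.{0} R
  F : ℕ → ModuleCat.{0} R
  ι : ℕ → Type
  fin : ∀ k, Fintype (ι k)
  b : ∀ k, Basis (ι k) R (F k)
  dC : ∀ k, C (k + 1) →ₗ[R] C k
  dF : ∀ k, F (k + 1) →ₗ[R] F k
  u : ∀ k, C k →ₗ[R] F k
  d : ∀ k, F k →ₗ[R] C k
  h : ∀ k, C k →ₗ[R] C (k + 1)
  dCC : ∀ k x, dC k (dC (k + 1) x) = 0
  dFF : ∀ k x, dF k (dF (k + 1) x) = 0
  uc : ∀ k x, u k (dC k x) = dF k (u (k + 1) x)
  dc : ∀ k x, d k (dF k x) = dC k (d (k + 1) x)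
  h0 : ∀ x, d 0 (u 0 x) - x = dC 0 (h 0 x)
  hs : ∀ k x, d (k + 1) (u (k + 1) x) - x = dC (k + 1) (h (k + 1) x) + h k (dC k x)

namespace Dm

variable (A : Dm R)

instance (k : ℕ) : Fintype (A.ι k) := A.fin k

/-- the new module in degree zero -/
def K : Submodule R (A.C 1 × A.F 0) := ker ((A.dC 0).coprod (A.d 0))

theorem mem_K {x : A.C 1 × A.F 0} : x ∈ A.K ↔ A.dC 0 x.1 + A.d 0 x.2 = 0 := Iff.rfl

/-- the new boundary -/
def dK : A.C 2 →ₗ[R] A.K := (inl R _ _ ∘ₗ A.dC 1).codRestrict _ fun c => by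
  simp [mem_K, A.dCC]

/-- the new map from the free complex -/
def d' : A.F 1 × A.F 0 →ₗ[R] A.K :=
  (((A.d 1).coprod (A.h 0 ∘ₗ A.d 0)).prod
    ((-A.dF 0).coprod (LinearMap.id - A.u 0 ∘ₗ A.d 0))).codRestrict _ fun x => by
    change A.dC 0 (A.d 1 x.1 + A.h 0 (A.d 0 x.2)) +
      A.d 0 (-A.dF 0 x.1 + (x.2 - A.u 0 (A.d 0 x.2))) = 0
    simp only [map_add, map_neg, map_sub, A.dc, ← A.h0]
    abel

/-- killing the degree zero -/
noncomputable def shift : Dm R where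
  C k := match k with
    | 0 => ModuleCat.of R A.K
    | k + 1 => A.C (k + 2)
  F k := match k with
    | 0 => ModuleCat.of R (A.F 1 × A.F 0)
    | k + 1 => A.F (k + 2)
  ι k := match k with
    | 0 => A.ι 1 ⊕ A.ι 0
    | k + 1 => A.ι (k + 2)
  fin k := match k with
    | 0 => inferInstanceAs (Fintype (A.ι 1 ⊕ A.ι 0))
    | k + 1 => A.fin (k + 2)
  b k := match k with
    | 0 => (A.b 1).prod (A.b 0)
    | k + 1 => A.b (k + 2)
  dC k := match k with
    | 0 => A.dK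
    | k + 1 => A.dC (k + 2)
  dF k := match k with
    | 0 => inl R (A.F 1) (A.F 0) ∘ₗ A.dF 1
    | k + 1 => A.dF (k + 2)
  u k := match k with
    | 0 => (A.u 1).prodMap LinearMap.id ∘ₗ A.K.subtype
    | k + 1 => A.u (k + 2)
  d k := match k with
    | 0 => A.d'
    | k + 1 => A.d (k + 2)
  h k := match k with
    | 0 => A.h 1 ∘ₗ fst R _ _ ∘ₗ A.K.subtype
    | k + 1 => A.h (k + 2)
  dCC k := match k with
    | 0 => fun x => Subtype.ext (Prod.ext (A.dCC 1 x) rfl)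
    | k + 1 => A.dCC (k + 2)
  dFF k := match k with
    | 0 => fun x => Prod.ext (A.dFF 1 x) rfl
    | k + 1 => A.dFF (k + 2)
  uc k := match k with
    | 0 => fun x => Prod.ext (A.uc 1 x) rfl
    | k + 1 => A.uc (k + 2)
  dc k := match k with
    | 0 => fun x => Subtype.ext (Prod.ext (by
        change A.d 1 (A.dF 1 x) + A.h 0 (A.d 0 0) = A.dC 1 (A.d 2 x)
        rw [A.dc, map_zero, map_zero, add_zero]) (by
        change -A.dF 0 (A.dF 1 x) + (0 - A.u 0 (A.d 0 0)) = 0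
        simp [A.dFF]))
    | k + 1 => A.dc (k + 2)
  h0 := fun ⟨⟨c, x⟩, hx⟩ => by
    have h1 : A.d 0 x = -A.dC 0 c := eq_neg_of_add_eq_zero_right hx
    refine Subtype.ext (Prod.ext ?_ ?_)
    · change A.d 1 (A.u 1 c) + A.h 0 (A.d 0 x) - c = A.dC 1 (A.h 1 c)
      rw [h1, map_neg, add_sub_right_comm, A.hs 0 c, add_neg_cancel_right]
    · change -A.dF 0 (A.u 1 c) + (x - A.u 0 (A.d 0 x)) - x = 0
      rw [h1, map_neg, A.uc]
      abel
  hs k := match k with
    | 0 => A.hs 1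
    | k + 1 => A.hs (k + 2)

theorem sub_F {k : ℕ} (h : IsEmpty (A.ι k)) (x : A.F k) : x = 0 := by
  rw [← (A.b k).sum_repr x, Fintype.sum_empty]

theorem top {k : ℕ} (h : IsEmpty (A.ι (k + 1))) :
    Subsingleton (Hm (C := fun k => A.C k) A.dC (k + 1)) := by
  refine Submodule.Quotient.subsingleton_iff.2 (eq_top_iff.2 fun x _ => ⟨-A.h _ x.1, ?_⟩)
  have := A.hs k x.1
  rw [A.sub_F h (A.u _ _), map_zero, show A.dC k x.1 = 0 from x.2, map_zero, add_zero] at this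
  rw [map_neg, ← this]
  simp

theorem tau_shift (t : R →+ ℝ) : tau t (A.shift.b 0) (A.shift.u 0 ∘ₗ A.shift.d 0) =
    tau t (A.b 1) (A.u 1 ∘ₗ A.d 1) + tau t (A.b 0) (LinearMap.id - A.u 0 ∘ₗ A.d 0) := by
  change tau t ((A.b 1).prod (A.b 0)) (((A.u 1).prodMap LinearMap.id ∘ₗ A.K.subtype) ∘ₗ A.d') = _
  simp [tau, Fintype.sum_sum_type, d', Basis.prod_apply]

theorem dim_shift (D : DimFn R) : ∃ x : ℝ≥0∞,
    D.δ (Hm (C := fun k => A.C k) A.dC 1) + x = D.δ (Hm (C := fun k => A.shift.C k) A.shift.dC 0) ∧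
    x + D.δ (Hm (C := fun k => A.C k) A.dC 0) = D.δ (A.F 0) := by
  let φ := (range (A.dC 0)).mkQ ∘ₗ A.d 0
  let f : (A.K ⧸ range A.dK) →ₗ[R] A.F 0 := (range A.dK).liftQ (snd R _ _ ∘ₗ A.K.subtype)
    (by rintro _ ⟨c, rfl⟩; rfl)
  let g : ker (A.dC 0) →ₗ[R] (A.K ⧸ range A.dK) := (range A.dK).mkQ ∘ₗ
    (inl R _ _ ∘ₗ (ker (A.dC 0)).subtype).codRestrict _ fun c => by simp [mem_K]
  refine ⟨D.δ (ker φ), ?_, ?_⟩
  · have h1 : range f = ker φ := by
      ext x
      constructor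
      · rintro ⟨y, rfl⟩
        obtain ⟨⟨⟨c, x⟩, hx⟩, rfl⟩ := Submodule.mkQ_surjective _ y
        exact (Submodule.Quotient.mk_eq_zero _).2 ⟨-c, (map_neg _ _).trans
          (neg_eq_of_add_eq_zero_right hx)⟩
      · intro hx
        obtain ⟨c, hc⟩ := (Submodule.Quotient.mk_eq_zero _).1 hx
        exact ⟨Submodule.Quotient.mk ⟨(-c, x), by simp [mem_K, hc]⟩, rfl⟩
    refine Eq.trans ?_ (D.quo_top (range A.dK)).symm
    rw [← D.ker_add f, h1]
    congr 1
    refine D.quo g ?_ fun z => (Submodule.Quotient.mk_eq_zero _).trans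
      ⟨fun ⟨c, hc⟩ => ⟨c, congrArg (fun x : A.K => x.1.1) hc⟩,
        fun ⟨c, hc⟩ => ⟨c, Subtype.ext (Prod.ext hc rfl)⟩⟩
    ext y
    obtain ⟨⟨⟨c, x⟩, hx⟩, rfl⟩ := Submodule.mkQ_surjective _ y
    constructor
    · rintro ⟨z, hz⟩
      rw [← hz]
      rfl
    · intro h
      obtain rfl : x = 0 := h
      exact ⟨⟨c, by simpa [mem_K] using hx⟩, rfl⟩
  · have h2 : range φ = ⊤ := range_eq_top.2 fun y => by
      obtain ⟨y, rfl⟩ := Submodule.mkQ_surjective _ y
      exact ⟨A.u 0 y, (Submodule.Quotient.eq _).2 ⟨_, (A.h0 y).symm⟩⟩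
    rw [← D.ker_add φ, h2, D.congr Submodule.topEquiv]
    congr 1
    exact D.quo_top _

theorem shift_succ (D : DimFn R) (k : ℕ) :
    D.δ (Hm (C := fun k => A.shift.C k) A.shift.dC (k + 1)) =
      D.δ (Hm (C := fun k => A.C k) A.dC (k + 2)) := by
  cases k with
  | succ k => rfl
  | zero =>
    have : ker A.dK = ker (A.dC 1) := Submodule.ext fun x =>
      ⟨fun h => congrArg (fun x : A.K => x.1.1) h, fun h => Subtype.ext (Prod.ext h rfl)⟩
    change D.δ (ker A.dK ⧸ (range (A.dC 2)).submoduleOf (ker A.dK)) = _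
    rw [this]
    rfl

/-- **Euler characteristic** -/
theorem euler (D : DimFn R) (m : ℕ) : ∀ A : Dm R, (∀ k, m < k → IsEmpty (A.ι k)) →
    (∀ k, D.δ (Hm (C := fun k => A.C k) A.dC k) ≠ ⊤) ∧
    ∑ k ∈ Finset.range (m + 1), (-1) ^ k * (D.δ (Hm (C := fun k => A.C k) A.dC k)).toReal =
      ∑ k ∈ Finset.range (m + 1), (-1) ^ k * tau D.t (A.b k) (A.u k ∘ₗ A.d k) := by
  induction m with
  | zero =>
    intro A hA
    have h1 : ∀ y, A.u 0 (A.dC 0 y) = 0 := fun y => by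
      rw [A.uc, A.sub_F (hA 1 one_pos) (A.u _ _), map_zero]
    have h2 : ∀ x, A.u 0 (A.d 0 (A.u 0 x)) = A.u 0 x := fun x => by
      rw [← sub_eq_zero, ← map_sub, A.h0, h1]
    obtain ⟨h3, h4⟩ := D.idem (A.b 0) (A.u 0 ∘ₗ A.d 0) fun x => h2 _
    have h5 : D.δ (Hm (C := fun k => A.C k) A.dC 0) = D.δ (range (A.u 0 ∘ₗ A.d 0)) := by
      refine D.quo (A.u 0 ∘ₗ Submodule.subtype ⊤) ?_ fun z => ⟨fun h => ⟨-A.h 0 z.1, ?_⟩, ?_⟩
      · refine le_antisymm ?_ ?_
        · rintro _ ⟨x, rfl⟩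
          exact ⟨_, h2 _⟩
        · rintro _ ⟨x, rfl⟩
          exact ⟨⟨_, trivial⟩, rfl⟩
      · rw [map_neg, ← A.h0, show A.u 0 z.1 = 0 from h]
        simp
      · rintro ⟨y, hy⟩
        exact (congrArg (A.u 0) hy).symm.trans (h1 y)
    refine ⟨fun k => ?_, by simp [h5, h4, h3]⟩
    cases k with
    | zero => rw [h5, h4]; exact ENNReal.ofReal_ne_top
    | succ k =>
      haveI := A.top (hA (k + 1) k.succ_pos)
      rw [D.zero]; exact ENNReal.zero_ne_top
  | succ m ih =>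
    intro A hA
    obtain ⟨i1, i2⟩ := ih A.shift fun k hk => by
      obtain ⟨k, rfl⟩ : ∃ j, k = j + 1 := ⟨k - 1, by omega⟩
      exact hA (k + 2) (by omega)
    obtain ⟨x, x1, x2⟩ := A.dim_shift D
    obtain ⟨h3, h4⟩ := D.idem (A.b 0) LinearMap.id fun x => rfl
    rw [range_id, D.congr Submodule.topEquiv, ← x2] at h4
    obtain ⟨f1, f2⟩ := ENNReal.add_ne_top.1 (x1 ▸ i1 0)
    have f0 := (ENNReal.add_ne_top.1 (h4 ▸ ENNReal.ofReal_ne_top)).2
    refine ⟨fun k => ?_, ?_⟩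
    · rcases k with _ | _ | k
      exacts [f0, f1, A.shift_succ D k ▸ i1 (k + 1)]
    have r1 := congrArg ENNReal.toReal x1
    have r2 := congrArg ENNReal.toReal h4
    rw [ENNReal.toReal_add f1 f2] at r1
    rw [ENNReal.toReal_add f2 f0, ENNReal.toReal_ofReal h3] at r2
    rw [Finset.sum_range_succ', Finset.sum_range_succ', A.tau_shift, tau_sub] at i2
    simp only [A.shift_succ] at i2
    have e1 : ∀ f : ℕ → ℝ, ∑ k ∈ Finset.range (m + 1 + 1), (-1) ^ k * f k =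
        f 0 - f 1 - ∑ k ∈ Finset.range m, (-1) ^ (k + 1) * f (k + 2) := fun f => by
      rw [Finset.sum_range_succ', Finset.sum_range_succ', sub_eq_add_neg,
        ← Finset.sum_neg_distrib]
      simp only [pow_succ]
      ring_nf
    rw [e1, e1]
    have e2 : ∀ k, tau D.t (A.shift.b (k + 1)) (A.shift.u (k + 1) ∘ₗ A.shift.d (k + 1)) =
      tau D.t (A.b (k + 2)) (A.u (k + 2) ∘ₗ A.d (k + 2)) := fun _ => rfl
    simp only [e2] at i2
    linear_combination r2 - r1 - i2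

end Dm

end Vale.Agent.N239X
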