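import Vale.Agent.N239X.Fn

set_option linter.all false

/-!
# From small lists of points to sorted lists of labels
-/

namespace Vale.Agent.N239X

open Finsupp Vale.Agent.P239 Vale.Agent.P239.M Vale.Agent.P239Z Set Topology Filter

theorem fin_lists {α : Type} {A : Set α} (hA : A.Finite) (n : ℕ) :
    {l : List α | l.length = n ∧ ∀ a ∈ l, a ∈ A}.Finite := by
  haveI := hA.to_subtype
  refine ((List.finite_length_eq A n).image (List.map Subtype.val)).subset fun l hl => ?_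
  exact ⟨l.attachWith _ hl.2, by simpa using hl.1, List.attachWith_map_subtype_val _⟩

variable {G X : Type} [Group G] [TopologicalSpace X] [MulAction G X] {e : X → X → ℝ} {m : ℕ}
  {η : ℝ}

/-- the group element of the first label -/
def kL {N : ℕ} (l : List (Lb m N G)) : G := hd (l.map (·.2.1))

theorem map_smul' {N : ℕ} (g : G) (l : List (Lb m N G)) :
    (g • l).map (·.2.1) = g • l.map (·.2.1) := by
  simp only [smul_list, List.map_map]
  rfl

theorem kL_smul {N : ℕ} (g : G) {l : List (Lb m N G)} (hl : l ≠ []) : kL (g • l) = g * kL l := by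
  rw [kL, map_smul', hd_smul g (by simpa using hl), kL]

namespace Fn

variable (F : Fn G e m η)

/-- labelling and sorting -/
noncomputable def bb : Ch ℂ X →ₗ[ℂ] Ch ℂ (Lb m F.N G) :=
  TF.TL (F := ℂ) (ι := Fin m) (A := G × Fin F.N) ∘ₗ pf F.lab

/-- good lists of labels -/
def Gd (t : List (Lb m F.N G)) : Prop := TF.Srt (ι := Fin m) (A := G × Fin F.N) t ∧
  ∀ a ∈ t, ∀ b ∈ t, a.2.1⁻¹ * b.2.1 ∈ F.R ∧ e (F.c a) (F.c b) < 3 * η

/-- small lists of points -/
def Sl (l : List X) : Prop := ∃ (g : G) (y : X), ∀ x ∈ l, g • x ∈ F.U y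

theorem bb_single (l : List X) : F.bb (single l 1) =
    TF.Tl (F := ℂ) (ι := Fin m) (A := G × Fin F.N) (l.map F.lab) := by
  change TF.TL (ι := Fin m) (A := G × Fin F.N) (pf F.lab (single l 1)) = _
  rw [pf_single]
  exact (TF.TL_single _ _).trans (one_smul _ _)

theorem bb_nil : F.bb (single [] 1) = single [] 1 := F.bb_single []

theorem bb_act (g : G) (c : Ch ℂ X) : F.bb (act g c) = act g (F.bb c) := by
  have a1 : pf F.lab (act g c) = pf (g • ·) (pf F.lab c) := by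
    rw [act_eq_pf, pf_pf, pf_pf]
    simp only [F.smul]
  change TF.TL (ι := Fin m) (A := G × Fin F.N) (pf F.lab (act g c)) = _
  rw [a1]
  exact (TF.psh_TL (ι := Fin m) (fun a : G × Fin F.N => (g * a.1, a.2)) (pf F.lab c)).symm

theorem bd_bb {c : Ch ℂ X} (hc : Sup F.Sl c) : M.bd (F.bb c) = F.bb (M.bd c) := by
  have := TF.bdy_TL (F := ℂ) (ι := Fin m) (A := G × Fin F.N) (c := pf F.lab c)
    (on_iff.2 (Sup.pf _ (hc.mono fun l ⟨g, y, a2⟩ a ha b hb hab => by
      obtain ⟨a, ha', rfl⟩ := List.mem_map.1 ha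
      obtain ⟨b, hb', rfl⟩ := List.mem_map.1 hb
      have := F.adm y _ (a2 a ha') _ (a2 b hb') (by rw [F.smul, F.smul]; exact hab)
      rw [F.smul, F.smul] at this
      exact MulAction.injective (β := Lb m F.N G) g this)))
  exact (bdy_eq _).symm.trans (this.trans (congrArg _ ((bdy_eq _).trans (bd_pf _ _))))

theorem sup_bb (he : IM G e) {P : List X → Prop} {Q : List (Lb m F.N G) → Prop} {c : Ch ℂ X}
    (hc : Sup (fun l => F.Sl l ∧ P l) c) (h : ∀ l t, P l → F.Gd t → t.length = l.length →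
      (∀ a ∈ t, ∃ x ∈ l, F.lab x = a) → Q t) : Sup Q (F.bb c) := by
  rw [SupA.eq_ext' F.bb]
  refine hc.ext fun l ⟨⟨g, y, a1⟩, a2⟩ => ?_
  rw [bb_single]
  refine (on_iff.1 (TF.Tl_mem (ι := Fin m) (A := G × Fin F.N) _)).mono fun t ⟨b1, b2, b3⟩ =>
    h l t a2 ⟨b1, fun a ha b hb => ?_⟩ (b2.trans (List.length_map _))
      fun a ha => List.mem_map.1 (b3 a ha)
  obtain ⟨a, ha', rfl⟩ := List.mem_map.1 (b3 a ha)
  obtain ⟨b, hb', rfl⟩ := List.mem_map.1 (b3 b hb)
  obtain ⟨c1, c2⟩ := F.sm y _ (a1 a ha') _ (a1 b hb')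
  rw [F.smul, F.smul] at c1
  rw [he.inv] at c2
  change (g * _)⁻¹ * (g * _) ∈ _ at c1
  rw [mul_inv_rev, mul_assoc, inv_mul_cancel_left] at c1
  refine ⟨c1, ?_⟩
  linarith [F.near a, F.near b, he.tri (F.c (F.lab a)) a (F.c (F.lab b)),
    he.tri a b (F.c (F.lab b)), he.symm a (F.c (F.lab a))]

variable {F}

theorem Gd.smul (he : IM G e) (g : G) {t : List (Lb m F.N G)} (h : F.Gd t) : F.Gd (g • t) := by
  refine ⟨List.pairwise_map.2 h.1, fun a ha b hb => ?_⟩
  obtain ⟨a, ha', rfl⟩ := List.mem_map.1 ha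
  obtain ⟨b, hb', rfl⟩ := List.mem_map.1 hb
  rw [F.c_smul, F.c_smul, he.inv]
  change (g * _)⁻¹ * (g * _) ∈ _ ∧ _
  rw [mul_inv_rev, mul_assoc, inv_mul_cancel_left]
  exact h.2 a ha' b hb'

theorem Gd.sub {t t' : List (Lb m F.N G)} (h : F.Gd t) (h' : t'.Sublist t) : F.Gd t' :=
  ⟨List.Pairwise.sublist h' h.1, fun a ha b hb => h.2 a (h'.subset ha) b (h'.subset hb)⟩

theorem Gd.le {t : List (Lb m F.N G)} (h : F.Gd t) : t.length ≤ m := by
  exact h.1.length_le.trans (Fintype.card_fin m).le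

theorem Gd.fin (k : ℕ) : {l | F.Gd l ∧ l.length = k + 1 ∧ kL l = 1}.Finite := by
  refine (fin_lists (α := Lb m F.N G) ((finite_univ (α := Fin m)).prod
    (F.R.finite_toSet.prod (finite_univ (α := Fin F.N)))) (k + 1)).subset
    fun l ⟨h1, h2, h3⟩ => ⟨h2, fun b hb => ⟨trivial, ?_, trivial⟩⟩
  obtain ⟨a, ha, h⟩ := List.mem_map.1 (hd_mem (l := l.map (·.2.1))
    (by simpa using ne_nil_of_length h2))
  have := (h1.2 a ha b hb).1
  rwa [h.trans h3, inv_one, one_mul] at this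

end Fn

end Vale.Agent.N239X
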