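import Vale.Agent.N239X.Pack
import Vale.Agent.N239X.Alg

set_option linter.all false

/-!
# Base change of the controlled domination
-/

namespace Vale.Agent.N239X

open Finsupp Vale.Agent.P239 Vale.Agent.P239.M Vale.Agent.P239Z

variable {G R : Type} [Group G] [Ring R] [Algebra ℂ R] (v : G →* R)

section rel

variable {S T N N' : Type} [MulAction G S] [MulAction G T] [AddCommGroup N] [Module R N]
  [Module ℂ N] [IsScalarTower ℂ R N] [AddCommGroup N'] [Module R N'] [Module ℂ N']
  [IsScalarTower ℂ R N']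

/-- maps that respect the relations of the tensor product -/
def Rl (f : S → N) : Prop := ∀ (g : G) s, f (g • s) = v g • f s

theorem map_lc' (φ : N →ₗ[R] N') (f : S → N) (c : S →₀ ℂ) :
    φ (lc f c) = lc (fun s => φ (f s)) c := map_lc (φ.restrictScalars ℂ) f c

variable {v}

theorem Rl.comp {f : T → N} (hf : Rl v f) {e : S → T →₀ ℂ} (he : Equi G e) :
    Rl v fun s => lc f (e s) := fun g s => by
  simp only [he g s, lc_act, hf g]
  simp only [lc, linearCombination_apply, Finsupp.sum, Finset.smul_sum, smul_comm (v g)]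

end rel

variable {X L : Type} [TopologicalSpace X] [MulAction G X] [ContinuousConstSMul G X]
  [MulAction G L] {m : ℕ} {C : ℕ → Type} [∀ k, AddCommGroup (C k)] [∀ k, Module R (C k)]
  [∀ k, Module ℂ (C k)] [∀ k, IsScalarTower ℂ R (C k)]

/-- the universal property of the base change of the singular chains -/
structure Univ (π : ∀ k, Sx X (k + 1) → C k) (dC : ∀ k, C (k + 1) →ₗ[R] C k) : Prop where
  rel : ∀ k, Rl v (π k)
  lift : ∀ k (N : Type) [AddCommGroup N] [Module R N] (f : Sx X (k + 1) → N), Rl v f →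
    ∃ φ : C k →ₗ[R] N, ∀ s, φ (π k s) = f s
  span : ∀ k, Submodule.span R (Set.range (π k)) = ⊤
  bd : ∀ k s, dC k (π (k + 1) s) = lc (π k) (dS s)

namespace Pack

variable (P : Pack G X L m)

/-- the representatives of the cells -/
def ι (k : ℕ) : Type := {l // P.Gd l ∧ l.length = k + 1 ∧ P.κ l = 1}

noncomputable instance (k : ℕ) : Fintype (P.ι k) := (P.fin k).fintype

noncomputable instance (k : ℕ) : DecidableEq (P.ι k) := Classical.decEq _

open Classical in
/-- coordinates -/
noncomputable def co (k : ℕ) (l : List L) : P.ι k → R :=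
  fun i => if (P.κ l)⁻¹ • l = i.1 then v (P.κ l) else 0

/-- the linear map with given values -/
noncomputable def lf {N : Type} [AddCommGroup N] [Module R N] (k : ℕ) (f : List L → N) :
    (P.ι k → R) →ₗ[R] N := Fintype.linearCombination R fun i : P.ι k => f i.1

/-- the number that does not depend on the coefficients -/
noncomputable def chi : ℝ := ∑ k ∈ Finset.range (m + 1), (-1) ^ k * ∑ i : P.ι k, (P.a i.1 i.1).re

theorem co_nil (k : ℕ) : P.co v k [] = 0 :=
  funext fun i => if_neg fun h => ne_nil_of_length i.2.2.1 h.symm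

theorem rl_co (k : ℕ) : Rl v (P.co v k) := fun g l => by
  classical
  by_cases h : l = []
  · subst h
    exact (P.co_nil v k).trans (by rw [co_nil, smul_zero])
  · funext i
    simp only [co, P.κ_smul g l h, mul_inv_rev, mul_smul, inv_smul_smul, Pi.smul_apply,
      smul_eq_mul, mul_ite, map_mul, mul_zero]

theorem lf_single {N : Type} [AddCommGroup N] [Module R N] {k : ℕ} (f : List L → N) (i : P.ι k) :
    P.lf k f (Pi.single i (1 : R)) = f i.1 := by
  simp [lf]

theorem lf_co {N : Type} [AddCommGroup N] [Module R N] [Module ℂ N] [IsScalarTower ℂ R N] {k : ℕ}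
    {f : List L → N} (hf : Rl v f) {c : Ch ℂ L}
    (hc : Sup (fun l => P.Gd l ∧ l.length = k + 1) c) : P.lf k f (lc (P.co v k) c) = lc f c := by
  rw [map_lc']
  refine lc_congr fun l hl => ?_
  obtain ⟨h1, h2⟩ := hc l hl
  let i : P.ι k := ⟨(P.κ l)⁻¹ • l, P.Gd_smul _ _ h1, (length_smul _ _).trans h2, by
    rw [P.κ_smul _ _ (ne_nil_of_length h2), inv_mul_cancel]⟩
  have : P.co v k l = v (P.κ l) • Pi.single i 1 := funext fun j => by
    by_cases h : j = i
    · subst h
      rw [Pi.smul_apply, Pi.single_eq_same, smul_eq_mul, mul_one]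
      exact if_pos rfl
    · rw [Pi.smul_apply, Pi.single_eq_of_ne h, smul_zero]
      exact if_neg fun h' => h (Subtype.ext h'.symm)
  rw [this, map_smul, lf_single, ← hf, smul_inv_smul]

theorem sup_face {k : ℕ} (i : P.ι (k + 1)) :
    Sup (fun l => P.Gd l ∧ l.length = k + 1) (bdL ℂ i.1) :=
  (sup_bdL i.1).mono fun l h => ⟨P.Gd_sub _ _ i.2.1 h.1, by have := i.2.2.1; omega⟩

theorem empty {k : ℕ} (h : m < k) : IsEmpty (P.ι k) :=
  ⟨fun i => by have := P.top _ i.2.1; have := i.2.2.1; omega⟩

theorem fext {N : Type} [AddCommGroup N] [Module R N] {k : ℕ} {A B : (P.ι k → R) →ₗ[R] N}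
    (h : ∀ i, A (Pi.single i 1) = B (Pi.single i 1)) : A = B :=
  (Pi.basisFun R _).ext fun i => by simpa using h i

theorem tau_a (t : R →+ ℝ) (ht : ∀ z : ℂ, t (z • 1) = z.re) (k : ℕ) :
    tau t (Pi.basisFun R (P.ι k)) (P.lf k fun l => lc (P.co v k) (P.a l)) =
      ∑ i : P.ι k, (P.a i.1 i.1).re := by
  classical
  refine Finset.sum_congr rfl fun i _ => ?_
  rw [Pi.basisFun_apply, lf_single, Pi.basisFun_repr, ← ht]
  congr 1
  refine (map_lc' (LinearMap.proj (R := R) (φ := fun _ => R) i) _ _).trans ?_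
  rw [lc_congr (v := fun l => (single l (1 : ℂ) : Ch ℂ L) i.1 • (1 : R)) fun l hl => ?_]
  · conv_rhs => rw [← lc_self (P.a i.1), lc_apply]
    exact (map_lc (LinearMap.toSpanSingleton ℂ R 1) _ _).symm
  · change (if _ then _ else _) = _
    split_ifs with h
    · have h1 : l = P.κ l • i.1 := by rw [← h, smul_inv_smul]
      have h2 := P.diag _ i.2.1 (ne_nil_of_length i.2.2.1) _ (h1 ▸ hl)
      rw [h2, one_smul] at h1
      rw [h2, h1]
      simp
    · rw [single_eq_of_ne, zero_smul]
      rintro rfl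
      exact h (by rw [i.2.2.2, inv_one, one_smul])

theorem euler {π : ∀ k, Sx X (k + 1) → C k} {dC : ∀ k, C (k + 1) →ₗ[R] C k} (U : Univ v π dC)
    (D : DimFn R) (ht : ∀ z : ℂ, D.t (z • 1) = z.re) :
    (∀ k, D.δ (Hm dC k) ≠ ⊤) ∧ (∀ k, m < k → D.δ (Hm dC k) = 0) ∧
      ∑ k ∈ Finset.range (m + 1), (-1) ^ k * (D.δ (Hm dC k)).toReal = P.chi := by
  have cext : ∀ {k} {N : Type} [AddCommGroup N] [Module R N] {A B : C k →ₗ[R] N},
      (∀ s, A (π k s) = B (π k s)) → ∀ x, A x = B x := fun h =>
    LinearMap.congr_fun (LinearMap.ext_on_range (U.span _) h)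
  have ru := fun k => (P.rl_co v k).comp (P.ue (k + 1))
  have rd := fun k => (U.rel k).comp (P.de k)
  have rb := fun k => (P.rl_co v k).comp (equi_bdL (G := G))
  have rH := fun k => (P.rl_co v k).comp P.He
  choose u hu using fun k => U.lift k _ _ (ru k)
  choose h hh using fun k => U.lift k _ _ ((U.rel (k + 1)).comp (P.he (k + 1)))
  let dF := fun k => P.lf (R := R) (k + 1) fun l => lc (P.co v k) (bdL ℂ l)
  let d := fun k => P.lf (R := R) k fun l => lc (π k) (P.d (k + 1) l)
  have hb : ∀ k c, dC k (lc (π (k + 1)) c) = lc (π k) (lc dS c) := fun k c => by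
    simp only [map_lc', map_lc, U.bd]
  have hu' : ∀ k c, u k (lc (π k) c) = lc (P.co v k) (lc (P.u (k + 1)) c) := fun k c => by
    simp only [map_lc', map_lc, hu]
  have hd : ∀ k s, d k (u k (π k s)) = lc (π k) (lc (P.d (k + 1)) (P.u (k + 1) s)) :=
    fun k s => by rw [hu, P.lf_co v (rd k) (P.us _ s), map_lc]
  have hF : ∀ k c, Sup (fun l => P.Gd l ∧ l.length = k + 1 + 1) c →
      dF k (lc (P.co v (k + 1)) c) = lc (P.co v k) (M.bd c) := fun k c hc => by
    rw [P.lf_co v (rb k) hc, lc_bd]
  let A : Dm R :=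
    { C := fun k => ModuleCat.of R (C k)
      F := fun k => ModuleCat.of R (P.ι k → R)
      ι := P.ι
      fin := inferInstance
      b := fun k => Pi.basisFun R _
      dC := dC
      dF := dF
      u := u
      d := d
      h := fun k => -h k
      dCC := fun k => cext (A := dC k ∘ₗ dC (k + 1)) (B := 0) fun s => by
        rw [LinearMap.comp_apply, U.bd, hb, dS_dS, map_zero, LinearMap.zero_apply]
      dFF := fun k => LinearMap.congr_fun (P.fext (A := dF k ∘ₗ dF (k + 1)) (B := 0) fun i => by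
        rw [LinearMap.comp_apply, P.lf_single, hF _ _ (P.sup_face i), bd_bdL, map_zero,
          LinearMap.zero_apply])
      uc := fun k => cext (A := u k ∘ₗ dC k) (B := dF k ∘ₗ u (k + 1)) fun s => by
        rw [LinearMap.comp_apply, LinearMap.comp_apply, U.bd, hu', hu, hF _ _ (P.us _ s), P.uc]
      dc := fun k => LinearMap.congr_fun (P.fext (A := d k ∘ₗ dF k) (B := dC k ∘ₗ d (k + 1))
        fun i => by
          rw [LinearMap.comp_apply, LinearMap.comp_apply, P.lf_single, P.lf_single,
            P.lf_co v (rd k) (P.sup_face i), hb, P.dc, map_lc])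
      h0 := cext (A := d 0 ∘ₗ u 0 - LinearMap.id) (B := dC 0 ∘ₗ (-h 0)) fun s => by
        simp only [LinearMap.comp_apply, LinearMap.sub_apply, LinearMap.id_apply,
          LinearMap.neg_apply, map_neg, hd, hh, hb, P.hs, map_sub, lc_single, one_smul,
          funext P.h0, lc_zero, map_zero]
        abel
      hs := fun k => cext (A := d (k + 1) ∘ₗ u (k + 1) - LinearMap.id)
        (B := dC (k + 1) ∘ₗ (-h (k + 1)) + (-h k) ∘ₗ dC k) fun s => by
        simp only [LinearMap.comp_apply, LinearMap.sub_apply, LinearMap.id_apply,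
          LinearMap.add_apply, LinearMap.neg_apply, map_neg, hd, hh, hb, P.hs, map_sub, lc_single,
          one_smul, U.bd]
        simp only [map_lc', map_lc, hh]
        abel }
  obtain ⟨a1, a2⟩ := Dm.euler D m A fun k => P.empty
  refine ⟨a1, fun k hk => ?_, a2.trans ?_⟩
  · obtain ⟨k, rfl⟩ : ∃ j, k = j + 1 := ⟨k - 1, by omega⟩
    haveI : Subsingleton (Hm dC (k + 1)) := A.top (P.empty hk)
    exact D.zero
  simp only [chi, ← P.tau_a v D.t ht]
  have key : ∀ k (i : P.ι k), P.lf k (fun l => lc (P.co v k) (P.a l)) (Pi.single i (1 : R)) -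
      u k (d k (Pi.single i 1)) = dF k (P.lf k (fun l => lc (P.co v (k + 1)) (P.H l))
        (Pi.single i (1 : R))) + lc (fun l => lc (P.co v k) (P.H l)) (bdL ℂ i.1) := fun k i => by
    have h2 := i.2.2.1
    have h4 := P.Hs _ i.2.1 (ne_nil_of_length h2)
    have h5 := P.Hc _ i.2.1 (ne_nil_of_length h2)
    rw [h2] at h4 h5
    rw [P.lf_single, P.lf_single, P.lf_single, hu', hF _ _ h4, h5, map_sub, map_sub, ← map_lc]
    abel
  refine (tau_htp D.comm (F := fun k => P.ι k → R) (fun k => Pi.basisFun R _) dF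
    (fun k => P.lf k fun l => lc (P.co v (k + 1)) (P.H l)) _ (fun k => u k ∘ₗ d k)
    (P.fext fun i => ?_) (fun k => P.fext fun i => ?_) m (P.empty m.lt_succ_self)).symm
  · refine (key 0 i).trans ?_
    rw [lc_congr (v := fun _ => 0) fun l hl => ?_, lc_zero, add_zero, LinearMap.comp_apply]
    have := (sup_bdL _ l hl).2
    rw [List.eq_nil_of_length_eq_zero (l := l) (by have := i.2.2.1; omega), P.H0, map_zero]
  · refine (key _ i).trans ?_
    rw [LinearMap.add_apply, LinearMap.comp_apply, LinearMap.comp_apply, P.lf_single,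
      P.lf_single, P.lf_co v (rH _) (P.sup_face i)]

end Pack

end Vale.Agent.N239X
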