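import Vale.Agent.N239X.Hm

set_option linter.all false

/-!
# Singular chains: comparison with Mathlib, lifting of simplices
-/

namespace Vale.Agent.N239X

open CategoryTheory

variable (K : Type) [CommRing K]

/-- the boundary of singular chains -/
noncomputable def dM (M : Type) [TopologicalSpace M] (k : ℕ) :
    (C(stdSimplex ℝ (Fin (k + 1 + 1)), M) →₀ K) →ₗ[K] (C(stdSimplex ℝ (Fin (k + 1)), M) →₀ K) :=
  Finsupp.linearCombination K fun s => ∑ i : Fin (k + 1 + 1), Finsupp.single
    (s.comp ⟨stdSimplex.map i.succAbove, stdSimplex.continuous_map _⟩) ((-1) ^ (i : ℕ))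

section comparison

open Limits Simplicial

variable (M : Type) [TopologicalSpace M]

/-- singular chains -/
abbrev BrC (k : ℕ) : Type := C(stdSimplex ℝ (Fin (k + 1)), M) →₀ K

/-- the singular simplicial set -/
noncomputable abbrev BrS : SSet.{0} := TopCat.toSSet.obj (TopCat.of M)

/-- the singular chain complex of Mathlib -/
noncomputable abbrev BrK : ChainComplex (ModuleCat.{0} K) ℕ :=
  (BrS M).chainComplex (ModuleCat.of K K)

/-- singular simplices as continuous maps -/
noncomputable def brTo {n : ℕ} : (BrS M) _⦋n⦌ ≃ C(stdSimplex ℝ (Fin (n + 1)), M) :=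
  TopCat.toSSetObjEquiv (TopCat.of M) (Opposite.op (SimplexCategory.mk n))

/-- from finitely supported functions to the chains of Mathlib -/
noncomputable def brIo (n : ℕ) : BrC K M n →ₗ[K] (BrK K M).X n :=
  Finsupp.linearCombination K fun σ =>
    ((BrS M).ιChainComplex ((brTo M).symm σ) : ModuleCat.of K K ⟶ (BrK K M).X n).hom (1 : K)

/-- the inverse map -/
noncomputable def brRo (n : ℕ) : (BrK K M).X n ⟶ ModuleCat.of K (BrC K M n) :=
  ((BrS M).isColimitChainComplexXCofan (ModuleCat.of K K) n).desc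
    (Cofan.mk _ fun x => ModuleCat.ofHom
      (LinearMap.toSpanSingleton K (BrC K M n) (Finsupp.single (brTo M x) 1)))

variable {K M}

theorem brIo_single {n : ℕ} (σ : C(stdSimplex ℝ (Fin (n + 1)), M)) (r : K) :
    brIo K M n (Finsupp.single σ r) = r • ((BrS M).ιChainComplex ((brTo M).symm σ) :
      ModuleCat.of K K ⟶ (BrK K M).X n).hom (1 : K) :=
  Finsupp.linearCombination_single _ _ _

theorem ι_brRo {n : ℕ} (x : (BrS M) _⦋n⦌) : (BrS M).ιChainComplex x ≫ brRo K M n =
    ModuleCat.ofHom (LinearMap.toSpanSingleton K (BrC K M n) (Finsupp.single (brTo M x) 1)) :=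
  ((BrS M).isColimitChainComplexXCofan (ModuleCat.of K K) n).fac _ ⟨x⟩

theorem brRo_io {n : ℕ} (c : BrC K M n) : (brRo K M n).hom (brIo K M n c) = c := by
  induction c using Finsupp.induction_linear with
  | zero => rw [map_zero, map_zero]
  | add a b ha hb => rw [map_add, map_add, ha, hb]
  | single σ r =>
    have h := congrArg (fun f => f.hom (1 : K)) (ι_brRo (K := K) ((brTo M).symm σ))
    simp only [ModuleCat.hom_comp, LinearMap.comp_apply, ModuleCat.hom_ofHom,
      LinearMap.toSpanSingleton_apply, one_smul, Equiv.apply_symm_apply] at h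
    rw [brIo_single, map_smul, h, Finsupp.smul_single, smul_eq_mul, mul_one]

theorem brIo_ro {n : ℕ} (y : (BrK K M).X n) : brIo K M n ((brRo K M n).hom y) = y := by
  have h : brRo K M n ≫ ModuleCat.ofHom (brIo K M n) = 𝟙 _ := by
    refine SSet.chainComplex_hom_ext fun x => ?_
    rw [← Category.assoc, ι_brRo, Category.comp_id]
    refine ModuleCat.hom_ext (LinearMap.ext_ring ?_)
    simp only [ModuleCat.hom_comp, LinearMap.comp_apply, ModuleCat.hom_ofHom,
      LinearMap.toSpanSingleton_apply, one_smul, brIo_single, Equiv.symm_apply_apply]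
  exact congrArg (fun f => f.hom y) h

theorem brIo_d {n : ℕ} (c : BrC K M (n + 1)) :
    brIo K M n (dM K M n c) = ((BrK K M).d (n + 1) n).hom (brIo K M (n + 1) c) := by
  induction c using Finsupp.induction_linear with
  | zero => simp only [map_zero]
  | add a b ha hb => simp only [map_add, ha, hb]
  | single σ r =>
    have h := congrArg (fun f => f.hom (1 : K))
      (SSet.ιChainComplex_d (X := BrS M) (R := ModuleCat.of K K) ((brTo M).symm σ))
    simp only [ModuleCat.hom_comp, LinearMap.comp_apply, ModuleCat.hom_sum,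
      LinearMap.sum_apply] at h
    rw [dM, Finsupp.linearCombination_single, brIo_single, map_smul, map_smul, h, map_sum]
    congr 1
    refine Finset.sum_congr rfl fun i _ => ?_
    rw [brIo_single, show ((-1 : K) ^ (i : ℕ)) = (((-1 : ℤ) ^ (i : ℕ) : ℤ) : K) by push_cast; rfl,
      Int.cast_smul_eq_zsmul]
    rfl

theorem br_phi (k j : ℕ) (hj : (ComplexShape.down ℕ).next k = j) (Z : Submodule K (BrC K M k))
    (hZ : ∀ c, c ∈ Z ↔ ((BrK K M).d k j).hom (brIo K M k c) = 0) :
    ∃ Φ : Z →ₗ[K] (BrK K M).homology k, Function.Surjective Φ ∧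
      ∀ c : Z, (∃ b, dM K M k b = c.1) ↔ Φ c = 0 := by
  let f : ModuleCat.of K Z ⟶ (BrK K M).X k := ModuleCat.ofHom (brIo K M k ∘ₗ Z.subtype)
  have hf : f ≫ (BrK K M).d k j = 0 := ModuleCat.hom_ext (LinearMap.ext fun c => (hZ c).1 c.2)
  have hi : Function.Injective ((BrK K M).iCycles k).hom :=
    (ModuleCat.mono_iff_injective _).1 inferInstance
  have hl : ∀ c : Z, ((BrK K M).iCycles k).hom (((BrK K M).liftCycles f j hj hf).hom c) =
      brIo K M k c := fun c => congrArg (fun g => g.hom c) ((BrK K M).liftCycles_i f j hj hf)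
  have ht : ∀ b, ((BrK K M).iCycles k).hom (((BrK K M).toCycles (k + 1) k).hom b) =
      ((BrK K M).d (k + 1) k).hom b := fun b =>
    congrArg (fun g => g.hom b) ((BrK K M).toCycles_i (k + 1) k)
  have hex := (ShortComplex.moduleCat_exact_iff _).1 (ShortComplex.exact_of_g_is_cokernel
    (ShortComplex.mk _ _ ((BrK K M).toCycles_comp_homologyπ (k + 1) k))
    ((BrK K M).homologyIsCokernel (k + 1) k (by simp)))
  let Φ : Z →ₗ[K] (BrK K M).homology k :=
    ((BrK K M).liftCycles f j hj hf ≫ (BrK K M).homologyπ k).hom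
  have hs : Function.Surjective Φ := fun x => by
    obtain ⟨z, rfl⟩ := (ModuleCat.epi_iff_surjective ((BrK K M).homologyπ k)).1 inferInstance x
    refine ⟨⟨(brRo K M k).hom (((BrK K M).iCycles k).hom z), (hZ _).2 ?_⟩, ?_⟩
    · rw [brIo_ro]
      exact congrArg (fun g => g.hom z) ((BrK K M).iCycles_d k j)
    · exact congrArg ((BrK K M).homologyπ k).hom (hi ((hl _).trans (brIo_ro _)))
  have hk : ∀ c : Z, (∃ b, dM K M k b = c.1) ↔ Φ c = 0 := by
    intro c
    constructor
    · rintro ⟨b, e⟩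
      have h1 : ((BrK K M).liftCycles f j hj hf).hom c =
          ((BrK K M).toCycles (k + 1) k).hom (brIo K M (k + 1) b) := by
        apply hi
        rw [hl, ht, ← brIo_d, e]
      show ((BrK K M).homologyπ k).hom (((BrK K M).liftCycles f j hj hf).hom c) = 0
      rw [h1]
      exact congrArg (fun g => g.hom (brIo K M (k + 1) b))
        ((BrK K M).toCycles_comp_homologyπ (k + 1) k)
    · intro h
      obtain ⟨b, e⟩ := hex (((BrK K M).liftCycles f j hj hf).hom c) h
      refine ⟨(brRo K M (k + 1)).hom b, ?_⟩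
      have h1 : brIo K M k (dM K M k ((brRo K M (k + 1)).hom b)) = brIo K M k c := by
        rw [brIo_d, brIo_ro, ← ht, ← hl]
        exact congrArg ((BrK K M).iCycles k).hom e
      have h2 := congrArg (brRo K M k).hom h1
      rwa [brRo_io, brRo_io] at h2
  exact ⟨Φ, hs, hk⟩

end comparison

theorem br_gen {R : Type} [Ring R] {C : ℕ → Type} [∀ k, AddCommGroup (C k)] [∀ k, Module R (C k)]
    (d : ∀ k, C (k + 1) →ₗ[R] C k) (k : ℕ) {H : Type} [AddCommGroup H] [Module R H]
    (h : ∃ Φ : cyc d k →ₗ[R] H, Function.Surjective Φ ∧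
      ∀ c : cyc d k, (∃ b, d k b = c.1) ↔ Φ c = 0) : Nonempty (Hm d k ≃ₗ[R] H) := by
  obtain ⟨Φ, hs, hk⟩ := h
  exact ⟨(Submodule.quotEquivOfEq _ _ (Submodule.ext hk)).trans (Φ.quotKerEquivOfSurjective hs)⟩

theorem bridge (M : Type) [TopologicalSpace M] (k : ℕ) : Nonempty
    (Hm (C := fun k => C(stdSimplex ℝ (Fin (k + 1)), M) →₀ K) (dM K M) k ≃ₗ[K]
    ((AlgebraicTopology.singularHomologyFunctor (ModuleCat.{0} K) k).obj
      (ModuleCat.of K K)).obj (TopCat.of M)) := by
  refine br_gen (C := fun k => C(stdSimplex ℝ (Fin (k + 1)), M) →₀ K) (dM K M) k ?_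
  cases k with
  | zero =>
    refine br_phi (M := M) 0 0 (by simp) ⊤ fun c => ⟨fun _ => ?_, fun _ => trivial⟩
    rw [(BrK K M).shape 0 0 (by simp)]
    rfl
  | succ k =>
    refine br_phi (M := M) (k + 1) k (by simp) (LinearMap.ker (dM K M k)) fun c => ?_
    rw [← brIo_d, LinearMap.mem_ker]
    refine ⟨fun h => by rw [h, map_zero], fun h => ?_⟩
    rw [← brRo_io (dM K M k c), h, map_zero]

theorem lift_simplex {M X G : Type} [TopologicalSpace M] [TopologicalSpace X] [Group G]
    [MulAction G X] [ContinuousConstSMul G X] {p : X → M} (hp : IsQuotientCoveringMap p G) (k : ℕ) :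
    (∀ s : C(stdSimplex ℝ (Fin (k + 1)), M), ∃ t : C(stdSimplex ℝ (Fin (k + 1)), X),
      ∀ u, p (t u) = s u) ∧
    ∀ t t' : C(stdSimplex ℝ (Fin (k + 1)), X), (∀ u, p (t u) = p (t' u)) → ∃ g : G, t' = g • t := by
  have hc := convex_stdSimplex ℝ (Fin (k + 1))
  obtain ⟨u0⟩ : Nonempty (stdSimplex ℝ (Fin (k + 1))) := inferInstance
  have := hc.contractibleSpace ⟨u0.1, u0.2⟩
  have := hc.locallyPathConnectedSpace
  refine ⟨fun s => ?_, fun t t' h => ?_⟩
  · obtain ⟨e, he⟩ := hp.toIsQuotientMap.surjective (s u0)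
    obtain ⟨t, ⟨-, ht⟩, -⟩ := hp.isCoveringMap.existsUnique_continuousMap_lifts s u0 e he
    exact ⟨t, congrFun ht⟩
  · obtain ⟨g, hg⟩ := hp.apply_eq_iff_mem_orbit.1 (h u0).symm
    refine ⟨g, ContinuousMap.coe_injective (hp.isCoveringMap.eq_of_comp_eq t'.continuous
      (g • t).continuous (funext fun u => ?_) u0 hg.symm)⟩
    exact (h u).symm.trans (hp.map_smul g).symm

end Vale.Agent.N239X
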