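import Vale.Agent.N239X.Bb

set_option linter.all false

/-!
# The mapping cylinder
-/

namespace Vale.Agent.N239X

open Finsupp Vale.Agent.P239 Vale.Agent.P239.M Vale.Agent.P239Z Set Topology Filter Sum

theorem supp_lc {S T : Type} {f : S → T →₀ ℂ} {c : S →₀ ℂ} {t : T} (ht : t ∈ (lc f c).support) :
    ∃ s ∈ c.support, t ∈ (f s).support := by
  by_contra h
  push Not at h
  refine mem_support_iff.1 ht ?_
  rw [lc_apply, lc_congr (v := fun _ => 0) fun s hs => notMem_support_iff.1 (h s hs), lc_zero]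

theorem supp_lc1 {S T : Type} {f : S → T} {c : S →₀ ℂ} {t : T}
    (ht : t ∈ (lc (fun s => single (f s) (1 : ℂ)) c).support) : ∃ s ∈ c.support, t = f s :=
  (supp_lc ht).imp fun s h => ⟨h.1, Finset.mem_singleton.1 (support_single_subset h.2)⟩

section cells

variable {G L : Type}

/-- the cells of the cylinder -/
abbrev Cy (G L : Type) : Type := List G ⊕ List L ⊕ List L

/-- one end -/
def emb : List L → Cy G L
  | [] => inl []
  | a :: l => inr (inl (a :: l))

/-- the prisms -/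
noncomputable def cy : List L → Cy G L →₀ ℂ
  | [] => 0
  | a :: l => single (inr (inr (a :: l))) 1

/-- the boundary -/
noncomputable def dl (Ψ : List L → Ch ℂ G) : Cy G L → Cy G L →₀ ℂ
  | inl l => lc (fun l' => single (inl l') 1) (bdL ℂ l)
  | inr (inl l) => lc (fun l' => single (emb l') 1) (bdL ℂ l)
  | inr (inr l) => single (emb l) 1 - lc (fun l' => single (inl l') 1) (Ψ l) - lc cy (bdL ℂ l)

/-- the degree -/
def dg : Cy G L → ℕ
  | inl l => l.length
  | inr (inl l) => l.length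
  | inr (inr l) => l.length + 1

variable {Ψ : List L → Ch ℂ G}

theorem emb_ne {l : List L} (h : l ≠ []) : (emb l : Cy G L) = inr (inl l) := by
  cases l with
  | nil => exact absurd rfl h
  | cons a l => rfl

theorem cy_ne {l : List L} (h : l ≠ []) : (cy l : Cy G L →₀ ℂ) = single (inr (inr l)) 1 := by
  cases l with
  | nil => exact absurd rfl h
  | cons a l => rfl

theorem dg_emb (l : List L) : dg (emb l : Cy G L) = l.length := by cases l <;> rfl

theorem dl_emb (l : List L) : dl Ψ (emb l) = lc (fun l' => single (emb l') 1) (bdL ℂ l) := by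
  cases l with
  | nil => simp [emb, dl, bdL]
  | cons a l => rfl

theorem dl_cy (h : Ψ [] = single [] 1) (l : List L) :
    lc (dl Ψ) (cy l) = dl Ψ (inr (inr l)) := by
  cases l with
  | nil => simp [cy, dl, bdL, emb, h]
  | cons a l => rw [cy, lc_single, one_smul]

theorem lc_bb {Y M : Type} [AddCommGroup M] [Module ℂ M] (f : List Y → M) (l : List Y) :
    lc (fun l' => lc f (bdL ℂ l')) (bdL ℂ l) = 0 := by
  rw [← lc_bd, bd_bdL, map_zero]

theorem dl_dl (h : Ψ [] = single [] 1) (s : Cy G L)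
    (hs : ∀ l, s = inr (inr l) → M.bd (Ψ l) = lc Ψ (bdL ℂ l)) : lc (dl Ψ) (dl Ψ s) = 0 := by
  rcases s with l | l | l
  · simp only [dl, map_lc, lc_single, one_smul, lc_bb]
  · rw [dl, map_lc]
    simp only [lc_single, one_smul, dl_emb, lc_bb]
  · rw [dl, map_sub, map_sub, map_lc, map_lc]
    simp only [lc_single, one_smul, dl_emb, dl_cy h]
    simp only [dl]
    rw [← lc_bd, hs l rfl, lc_sub, lc_sub, lc_bb, map_lc]
    abel

theorem supp_cy {l : List L} {t : Cy G L} (ht : t ∈ (dl Ψ (inr (inr l))).support) :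
    t = emb l ∨ (∃ l' ∈ (Ψ l).support, t = inl l') ∨
      ∃ l' ∈ (bdL ℂ l).support, l' ≠ [] ∧ t = inr (inr l') := by
  classical
  rcases Finset.mem_union.1 (support_sub ht) with h | h
  · rcases Finset.mem_union.1 (support_sub h) with h | h
    · exact .inl (Finset.mem_singleton.1 (support_single_subset h))
    · exact .inr (.inl (supp_lc1 h))
  · obtain ⟨l', h1, h2⟩ := supp_lc h
    cases l' with
    | nil => simp [cy] at h2
    | cons a l' =>
      exact .inr (.inr ⟨_, h1, by simp, Finset.mem_singleton.1 (support_single_subset h2)⟩)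

variable [Group G] [MulAction G L]

theorem emb_smul (g : G) (l : List L) : (emb (g • l) : Cy G L) = g • emb l := by
  cases l <;> rfl

theorem equi_cy : Equi G (cy : List L → Cy G L →₀ ℂ) := fun g l => by
  cases l with
  | nil => exact (map_zero _).symm
  | cons a l => exact (act_single g (inr (inr (a :: l)) : Cy G L) 1).symm

theorem equi_inl : Equi G fun l : List G => single (inl l : Cy G L) (1 : ℂ) :=
  equi_single fun _ _ => rfl

theorem equi_dl (h : Equi G Ψ) : Equi G (dl Ψ) := fun g s => by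
  rcases s with l | l | l
  · exact equi_bdL.comp equi_inl g l
  · exact equi_bdL.comp (equi_single emb_smul) g l
  · exact ((equi_single emb_smul).sub (h.comp equi_inl)).sub (equi_bdL.comp equi_cy) g l

end cells

variable {G X : Type} [Group G] [TopologicalSpace X] [MulAction G X] [ContinuousConstSMul G X]
  [ContractibleSpace X] {e : X → X → ℝ} {m : ℕ} {η : ℝ}

theorem smul_ne_nil {Y : Type} [MulAction G Y] (g : G) {l : List Y} (h : l ≠ []) : g • l ≠ [] := by
  simpa [smul_list] using h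

theorem exists_cyl (he : IM G e) (F : Fn G e m η) {ε : ℕ → ℝ} (hε : ∀ k < m + 1, ∀ x,
      ∃ W : Set X, ContractibleSpace W ∧ (∀ z, e x z ≤ ε k + 3 * η → z ∈ W) ∧
        ∀ z ∈ W, e x z ≤ ε (k + 1)) {R : Finset G} {Ψ : List (Lb m F.N G) → Ch ℂ G}
    (h1 : Equi G Ψ) (h2 : Ψ [] = single [] 1) (h3 : ∀ l, F.Gd l → M.bd (Ψ l) = lc Ψ (bdL ℂ l) ∧
      Sup (fun l' => l'.length = l.length ∧ SmG R l') (Ψ l)) :
    ∃ (ψ : List G → Ch ℂ X) (a H : List (Lb m F.N G) → Ch ℂ X), Equi G ψ ∧ Equi G H ∧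
      ψ [] = single [] 1 ∧ H [] = 0 ∧
      (∀ l, SmG R l → l.length ≤ m + 1 → M.bd (ψ l) = lc ψ (bdL ℂ l) ∧
        Sup (fun l' => F.Sl l' ∧ l'.length = l.length) (ψ l)) ∧
      ∀ l, F.Gd l → l ≠ [] → M.bd (H l) = a l - lc ψ (Ψ l) - lc H (bdL ℂ l) ∧
        Sup (fun l' => F.Sl l' ∧ l'.length = l.length + 1) (H l) ∧
        Sup (fun l' => F.Sl l' ∧ ∀ x ∈ l', ∃ b ∈ l, e (F.c b) x ≤ ε l.length) (a l) := by
  let D : Cy G (Lb m F.N G) → Prop := Sum.elim (SmG R)
    (Sum.elim (fun l => F.Gd l ∧ l ≠ []) fun l => F.Gd l ∧ l ≠ [])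
  let κ : Cy G (Lb m F.N G) → G := Sum.elim hd (Sum.elim kL kL)
  let C : Cy G (Lb m F.N G) → Set X := Sum.elim (fun _ => univ)
    (Sum.elim (fun l => {x | ∃ b ∈ l, e (F.c b) x ≤ ε l.length}) fun _ => univ)
  have hD : ∀ l, F.Gd l → D (emb l) := fun l hl => by
    cases l with
    | nil => exact fun x hx => by simp at hx
    | cons a l => exact ⟨hl, by simp⟩
  have hu : ContractibleSpace (univ : Set X) := (Homeomorph.Set.univ X).contractibleSpace
  have hC : Cells G (m + 1) dg D κ (dl Ψ) C := by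
    refine ⟨fun g s => ?_, fun g s hs => ?_, fun g s hs h0 => ?_, equi_dl h1,
      fun s hs _ t ht => ?_, fun s hs _ => dl_dl h2 s fun l hl => ?_, fun s => ?_,
      fun g s hs h0 x hx => ?_, fun k => ?_, fun s hs h0 hN => ?_⟩
    · rcases s with l | l | l
      exacts [length_smul g l, length_smul g l, congrArg (· + 1) (length_smul g l)]
    · rcases s with l | l | l
      exacts [smG_smul g hs, ⟨hs.1.smul he g, smul_ne_nil g hs.2⟩,
        ⟨hs.1.smul he g, smul_ne_nil g hs.2⟩]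
    · rcases s with l | l | l
      exacts [hd_smul g fun h => h0 (h ▸ rfl), kL_smul g hs.2, kL_smul g hs.2]
    · rcases s with l | l | l
      · obtain ⟨l', a1, rfl⟩ := supp_lc1 ht
        exact ⟨smG_sub hs (sup_bdL l l' a1).1, (sup_bdL l l' a1).2⟩
      · obtain ⟨l', a1, rfl⟩ := supp_lc1 ht
        exact ⟨hD _ (hs.1.sub (sup_bdL l l' a1).1), by rw [dg_emb]; exact (sup_bdL l l' a1).2⟩
      · rcases supp_cy ht with rfl | ⟨l', a1, rfl⟩ | ⟨l', a1, a2, rfl⟩
        · exact ⟨hD _ hs.1, by rw [dg_emb]; rfl⟩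
        · exact ⟨((h3 l hs.1).2 l' a1).2, congrArg (· + 1) ((h3 l hs.1).2 l' a1).1⟩
        · exact ⟨⟨hs.1.sub (sup_bdL l l' a1).1, a2⟩, congrArg (· + 1) (sup_bdL l l' a1).2⟩
    · subst hl
      exact (h3 l hs.1).1
    · rcases s with l | l | l
      · exact isClosed_univ
      · have := (List.finite_toSet l).isClosed_biUnion fun b _ => he.closed (F.c b) (ε l.length)
        convert this using 1
        ext x
        simp [C]
      · exact isClosed_univ
    · rcases s with l | l | l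
      · trivial
      · obtain ⟨b, b1, b2⟩ := hx
        exact ⟨g • b, List.mem_map_of_mem b1, by rwa [F.c_smul, he.inv, length_smul]⟩
      · trivial
    · refine ((((fin_lists R.finite_toSet (k + 1)).image inl).union
        ((Fn.Gd.fin (F := F) k).image (inr ∘ inl))).union
        ((Fn.Gd.fin (F := F) (k - 1)).image (inr ∘ inr))).subset fun s ⟨a1, a2, a3⟩ => ?_
      rcases s with l | l | l
      · refine .inl (.inl ⟨l, ⟨a2, fun x hx => ?_⟩, rfl⟩)
        have := a1 _ (hd_mem (ne_nil_of_length a2)) x hx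
        rwa [show hd l = 1 from a3, inv_one, one_mul] at this
      · exact .inl (.inr ⟨l, ⟨a1.1, a2, a3⟩, rfl⟩)
      · have := List.length_pos_iff.2 a1.2
        exact .inr ⟨l, ⟨a1.1, by simp only [dg] at a2; omega, a3⟩, rfl⟩
    · rcases s with l | l | l
      · exact ⟨univ, hu, subset_rfl, fun _ _ _ => subset_univ _⟩
      · obtain ⟨b, hb⟩ := List.exists_mem_of_ne_nil l hs.2
        obtain ⟨k, hk⟩ : ∃ k, l.length = k + 1 := ⟨l.length - 1, by simp only [dg] at h0; omega⟩
        obtain ⟨W, w1, w2, w3⟩ := hε k (by simp only [dg] at hN; omega) (F.c b)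
        refine ⟨W, w1, fun z hz => ⟨b, hb, hk ▸ w3 z hz⟩, fun t ht t0 x hx => ?_⟩
        obtain ⟨l', a1, rfl⟩ := supp_lc1 ht
        rw [dg_emb] at t0
        rw [emb_ne (List.length_pos_iff.1 (Nat.pos_of_ne_zero t0))] at hx
        obtain ⟨b', b1, b2⟩ := hx
        obtain ⟨a2, a3⟩ := sup_bdL l l' a1
        rw [show l'.length = k by omega] at b2
        exact w2 x (by linarith [he.tri (F.c b) (F.c b') x, (hs.1.2 b hb b' (a2.subset b1)).2])
      · exact ⟨univ, hu, subset_rfl, fun _ _ _ => subset_univ _⟩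
  obtain ⟨ψ, p1, p2, p3⟩ := hC.realize (m + 1) le_rfl F.U F.nhd
  refine ⟨fun l => ψ (inl l), fun l => ψ (emb l), fun l => lc ψ (cy l), fun g l => p1 g (inl l),
    equi_cy.comp p1, p2 _ rfl, map_zero _, fun l hl hm => ?_, fun l hl h0 => ?_⟩
  · obtain ⟨a1, a2⟩ := p3 (inl l) hl hm
    refine ⟨?_, a2.mono fun l' h => ⟨⟨_, h.2.2⟩, h.1⟩⟩
    simpa only [dl, map_lc, lc_single, one_smul] using a1
  · obtain ⟨a1, a2⟩ := p3 (inr (inr l)) ⟨hl, h0⟩ (Nat.succ_le_succ hl.le)
    obtain ⟨-, a3⟩ := p3 (inr (inl l)) ⟨hl, h0⟩ (hl.le.trans m.le_succ)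
    dsimp only
    rw [cy_ne h0, lc_single, one_smul]
    refine ⟨?_, a2.mono fun l' h => ⟨⟨_, h.2.2⟩, h.1⟩, ?_⟩
    · simpa only [dl, map_sub, map_lc, lc_single, one_smul] using a1
    · rw [emb_ne h0]
      exact a3.mono fun l' h => ⟨⟨_, h.2.2⟩, h.2.1⟩

end Vale.Agent.N239X
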