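import Mathlib

/-!
# Rational singular homology and the Euler characteristic
-/

namespace Vale.Agent.N239X

/-- The singular homology `H_q(M; ℚ)` of Mathlib. -/
noncomputable abbrev HQ (M : Type) [TopologicalSpace M] (q : ℕ) : ModuleCat.{0} ℚ :=
  ((AlgebraicTopology.singularHomologyFunctor (ModuleCat.{0} ℚ) q).obj (ModuleCat.of ℚ ℚ)).obj
    (TopCat.of M)

/-- The Euler characteristic `∑ (-1) ^ q dim H_q(M; ℚ)`, the sum over all degrees `q`. -/
noncomputable def euler (M : Type) [TopologicalSpace M] : ℤ :=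
  ∑ᶠ q : ℕ, (-1) ^ q * (Module.finrank ℚ (HQ M q) : ℤ)

end Vale.Agent.N239X
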