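import Mathlib

set_option linter.all false

/-!
# Invariant metrics and colourings
-/

namespace Vale.Agent.N239X

open Set Topology Filter

/-- an invariant metric that gives the topology -/
structure IM (G : Type) {X : Type} [Group G] [MulAction G X] [TopologicalSpace X]
    (e : X → X → ℝ) : Prop where
  self : ∀ x, e x x = 0
  symm : ∀ x y, e x y = e y x
  tri : ∀ x y z, e x z ≤ e x y + e y z
  inv : ∀ (g : G) x y, e (g • x) (g • y) = e x y
  cont : ∀ x, ∀ ε > 0, {y | e x y < ε} ∈ 𝓝 x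
  sep : ∀ x, ∀ N ∈ 𝓝 x, ∃ ε > 0, ∀ y, e x y < ε → y ∈ N

theorem exists_IM {G X : Type} [Group G] [MulAction G X] [MetricSpace X] [LocallyCompactSpace X]
    [ContinuousConstSMul G X] {B : Set X} (hB : IsCompact B) (hc : ∀ x, ∃ g : G, g • x ∈ B)
    (hp : ∀ C D : Set X, IsCompact C → IsCompact D → {g : G | ∃ y ∈ C, g • y ∈ D}.Finite) :
    ∃ e : X → X → ℝ, IM G e := by
  obtain ⟨r, hr, hK⟩ := hB.exists_isCompact_cthickening
  obtain ⟨f, hf⟩ : ∃ f : X → ℝ, ∀ x, f x = max 0 (r - Metric.infDist x B) := ⟨_, fun _ => rfl⟩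
  have f0 : ∀ x, 0 ≤ f x := fun x => hf x ▸ le_max_left _ _
  have f1 : ∀ x, f x ≤ r := fun x =>
    hf x ▸ max_le hr.le (sub_le_self _ Metric.infDist_nonneg)
  have f2 : ∀ x y, f x ≤ dist x y + f y := by
    intro x y
    have h1 := Metric.infDist_le_infDist_add_dist (x := y) (y := x) (s := B)
    have h2 : r - Metric.infDist y B ≤ f y := hf y ▸ le_max_right _ _
    rw [hf x, dist_comm]
    exact max_le (add_nonneg dist_nonneg (f0 y)) (by linarith)
  have f3 : ∀ x ∈ B, f x = r := fun x hx => by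
    rw [hf, Metric.infDist_zero_of_mem hx, sub_zero, max_eq_right hr.le]
  have f4 : ∀ x, x ∉ Metric.cthickening r B → f x = 0 := by
    intro x hx
    obtain ⟨g, hg⟩ := hc x
    rw [hf]
    refine max_eq_left (sub_nonpos.2 (not_lt.1 fun h => hx ?_))
    exact Metric.thickening_subset_cthickening _ _
      ((Metric.mem_thickening_iff_infDist_lt ⟨_, hg⟩).2 h)
  obtain ⟨ρ, hρ⟩ : ∃ ρ : X → X → ℝ, ∀ x y, ρ x y = min (dist x y) (f x + f y) :=
    ⟨_, fun _ _ => rfl⟩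
  have r1 : ∀ x y, ρ x y ≤ dist x y := fun x y => hρ x y ▸ min_le_left _ _
  have r2 : ∀ x y, ρ x y ≤ f x + f y := fun x y => hρ x y ▸ min_le_right _ _
  have r3 : ∀ x y z, ρ x z ≤ ρ x y + ρ y z := by
    intro x y z
    have a1 := r1 x z
    have a2 := r2 x z
    have a3 := dist_triangle x y z
    have a4 := f2 x y
    have a5 := f2 z y
    have a6 := f0 y
    rw [dist_comm] at a5
    rw [hρ x y, hρ y z]
    rcases min_choice (dist x y) (f x + f y) with h | h <;>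
      rcases min_choice (dist y z) (f y + f z) with h' | h' <;> rw [h, h'] <;> linarith
  have hb : ∀ x y : X, BddAbove (range fun g : G => ρ (g • x) (g • y)) := fun x y =>
    ⟨r + r, forall_mem_range.2 fun g => (r2 _ _).trans (add_le_add (f1 _) (f1 _))⟩
  refine ⟨fun x y => ⨆ g : G, ρ (g • x) (g • y), fun x => ?_, fun x y => ?_, fun x y z => ?_,
    fun h x y => ?_, fun x ε hε => ?_, fun x N hN => ?_⟩
  · have : ∀ g : G, ρ (g • x) (g • x) = 0 := fun g => by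
      rw [hρ, dist_self, min_eq_left (add_nonneg (f0 _) (f0 _))]
    simp only [this, ciSup_const]
  · simp only [hρ, dist_comm, add_comm]
  · exact ciSup_le fun g => (r3 _ (g • y) _).trans
      (add_le_add (le_ciSup (hb x y) g) (le_ciSup (hb y z) g))
  · simp only [← mul_smul]
    exact (Equiv.mulRight h).iSup_comp (g := fun g : G => ρ (g • x) (g • y))
  · obtain ⟨C, hC, hxC⟩ := exists_compact_mem_nhds x
    have h1 : ∀ᶠ y in 𝓝 x, ∀ g ∈ {g : G | ∃ y ∈ C, g • y ∈ Metric.cthickening r B},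
        dist (g • x) (g • y) < ε / 2 := by
      rw [eventually_all_finite (hp C _ hC hK)]
      intro g _
      have := (continuous_const_smul g).continuousAt (x := x)
        (Metric.ball_mem_nhds (g • x) (half_pos hε))
      filter_upwards [this] with y hy
      rw [dist_comm]; exact hy
    filter_upwards [h1, hxC] with y hy hyC
    refine (ciSup_le fun g => ?_).trans_lt (half_lt_self hε)
    by_cases hg : g ∈ {g : G | ∃ y ∈ C, g • y ∈ Metric.cthickening r B}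
    · exact (r1 _ _).trans (hy g hg).le
    · have a1 := f4 (g • x) fun h => hg ⟨x, mem_of_mem_nhds hxC, h⟩
      have a2 := f4 (g • y) fun h => hg ⟨y, hyC, h⟩
      have a3 := r2 (g • x) (g • y)
      linarith
  · obtain ⟨g, hg⟩ := hc x
    have h1 : (fun w => g⁻¹ • w) ⁻¹' N ∈ 𝓝 (g • x) :=
      (continuous_const_smul g⁻¹).continuousAt (by simpa using hN)
    obtain ⟨δ, hδ, h2⟩ := Metric.mem_nhds_iff.1 h1
    refine ⟨min δ r, lt_min hδ hr, fun y hy => ?_⟩
    have h3 := (le_ciSup (hb x y) g).trans_lt hy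
    rw [hρ, min_lt_iff] at h3
    have h4 : dist (g • x) (g • y) < δ := by
      rcases h3 with h | h
      · exact h.trans_le (min_le_left _ _)
      · have := f3 _ hg
        have := f0 (g • y)
        have := min_le_right δ r
        linarith
    simpa using h2 (Metric.mem_ball'.2 h4)

theorem exists_fin_of_finite_range {α β : Type} (f : α → β) (h : (range f).Finite) :
    ∃ (N : ℕ) (c : α → Fin N), ∀ a b, c a = c b ↔ f a = f b := by
  have := h.to_subtype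
  obtain ⟨N, ⟨E⟩⟩ := Finite.exists_equiv_fin (range f)
  exact ⟨N, fun a => E ⟨f a, a, rfl⟩, fun a b => E.injective.eq_iff.trans Subtype.mk_eq_mk⟩

theorem colouring {G X : Type} [Group G] [MulAction G X] [TopologicalSpace X] [T2Space X]
    {e : X → X → ℝ} (he : IM G e) {n : ℕ}
    (hch : ∀ x, ∃ j : (Fin n → ℝ) → X, IsOpenEmbedding j ∧ j 0 = x) {B : Set X}
    (hB : IsCompact B) : ∃ m : ℕ, ∀ η > 0, ∃ (N : ℕ) (col : X → Fin m) (cel : X → Fin N)
      (U : X → Set X), (∀ x, U x ∈ 𝓝 x) ∧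
      (∀ x, ∀ y ∈ U x ∩ B, ∀ z ∈ U x ∩ B, col y = col z → cel y = cel z) ∧
      ∀ y ∈ B, ∀ z ∈ B, cel y = cel z → e y z < η := by
  rcases B.eq_empty_or_nonempty with rfl | ⟨x₀, hx₀⟩
  · exact ⟨1, fun η _ => ⟨1, 0, 0, fun _ => univ, fun _ => univ_mem, by simp, by simp⟩⟩
  choose j hj hj0 using hch
  obtain ⟨T, hT⟩ := hB.elim_nhds_subcover' (fun x _ => j x '' Metric.ball 0 1) fun x _ =>
    ((hj x).isOpenMap _ Metric.isOpen_ball).mem_nhds ⟨0, Metric.mem_ball_self one_pos, hj0 x⟩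
  have h0 : ∀ y ∈ B, ∃ p : T × (Fin n → ℝ), p.2 ∈ Metric.closedBall 0 1 ∧ j p.1.1.1 p.2 = y := by
    intro y hy
    obtain ⟨t, ht, u, hu, rfl⟩ := mem_iUnion₂.1 (hT hy)
    exact ⟨(⟨t, ht⟩, u), Metric.ball_subset_closedBall hu, rfl⟩
  have h1 : ∀ y, ∃ p : T × (Fin n → ℝ), p.2 ∈ Metric.closedBall 0 1 ∧
      (y ∈ B → j p.1.1.1 p.2 = y) := by
    intro y
    by_cases hy : y ∈ B
    · obtain ⟨p, a, b⟩ := h0 y hy
      exact ⟨p, a, fun _ => b⟩
    · obtain ⟨p, a, -⟩ := h0 x₀ hx₀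
      exact ⟨p, a, fun h => absurd h hy⟩
  choose p hp1 hp2 using h1
  obtain ⟨m, ⟨E⟩⟩ := Finite.exists_equiv_fin (T × (Fin n → Prop))
  refine ⟨m, fun η hη => ?_⟩
  have h2 : ∀ t : T, ∀ᶠ δ in 𝓝[>] (0 : ℝ), ∀ a ∈ Metric.closedBall (0 : Fin n → ℝ) 1, ∀ b,
      dist a b < δ → e (j t.1.1 a) (j t.1.1 b) < η := by
    intro t
    obtain ⟨V, hV, h⟩ := lebesgue_number_lemma_nhds (isCompact_closedBall (0 : Fin n → ℝ) 1)
      (U := fun a => j t.1.1 ⁻¹' {y | e (j t.1.1 a) y < η / 2}) fun a _ =>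
        (hj t.1.1).continuous.continuousAt (he.cont _ _ (half_pos hη))
    obtain ⟨δ₀, hδ₀, hδ⟩ := Metric.mem_uniformity_dist.1 hV
    filter_upwards [Ioo_mem_nhdsGT hδ₀] with δ hδ' a ha b hab
    obtain ⟨c, hc⟩ := h a ha
    have a1 : e (j t.1.1 c) (j t.1.1 a) < η / 2 := hc (hδ (by simpa using hδ₀))
    have a2 : e (j t.1.1 c) (j t.1.1 b) < η / 2 := hc (hδ (hab.trans hδ'.2))
    have a3 := he.tri (j t.1.1 a) (j t.1.1 c) (j t.1.1 b)
    rw [he.symm (j t.1.1 a) (j t.1.1 c)] at a3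
    linarith
  obtain ⟨δ, hδ, hδ0⟩ := ((eventually_all.2 h2).and self_mem_nhdsWithin).exists
  have hδ0 : 0 < δ := hδ0
  have h3 : ∀ (x : X) (t : T), ∃ W ∈ 𝓝 x, ∀ a ∈ Metric.closedBall (0 : Fin n → ℝ) 1,
      ∀ b ∈ Metric.closedBall (0 : Fin n → ℝ) 1, j t.1.1 a ∈ W → j t.1.1 b ∈ W → dist a b < δ := by
    intro x t
    by_cases hx : x ∈ j t.1.1 '' Metric.closedBall 0 1
    · obtain ⟨w, -, rfl⟩ := hx
      refine ⟨j t.1.1 '' Metric.ball w (δ / 2), ((hj _).isOpenMap _ Metric.isOpen_ball).mem_nhds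
        ⟨w, Metric.mem_ball_self (half_pos hδ0), rfl⟩, fun a _ b _ ha hb => ?_⟩
      rw [(hj _).injective.mem_set_image, Metric.mem_ball] at ha hb
      linarith [dist_triangle_right a b w]
    · exact ⟨_, ((isCompact_closedBall 0 1).image (hj _).continuous).isClosed.isOpen_compl.mem_nhds
        hx, fun a ha _ _ h _ => absurd ⟨a, ha, rfl⟩ h⟩
  choose W hW hW' using h3
  obtain ⟨N, cel, hcel⟩ := exists_fin_of_finite_range
    (fun y => ((p y).1, fun k => ⌊(p y).2 k / δ⌋)) (by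
      refine (((finite_univ (α := T))).prod
        (Finite.pi' fun _ : Fin n => finite_Icc ⌊-1 / δ⌋ ⌊1 / δ⌋)).subset ?_
      rintro _ ⟨y, rfl⟩
      refine ⟨mem_univ _, fun k => ?_⟩
      have a1 := abs_le.1 ((norm_le_pi_norm (p y).2 k).trans (mem_closedBall_zero_iff.1 (hp1 y)))
      exact ⟨Int.floor_mono (div_le_div_of_nonneg_right a1.1 hδ0.le),
        Int.floor_mono (div_le_div_of_nonneg_right a1.2 hδ0.le)⟩)
  refine ⟨N, fun y => E ((p y).1, fun k => ⌊(p y).2 k / δ⌋ % 2 = 0), cel, fun x => ⋂ t, W x t,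
    fun x => iInter_mem.2 (hW x), fun x y hy z hz h => ?_, fun y hy z hz h => ?_⟩
  · obtain ⟨e1, e2⟩ := Prod.mk.inj (E.injective h)
    refine (hcel y z).2 (Prod.ext e1 (funext fun k => ?_))
    have a1 := hW' x (p y).1 _ (hp1 y) _ (hp1 z) (by rw [hp2 y hy.2]; exact mem_iInter.1 hy.1 _)
      (by rw [e1, hp2 z hz.2]; exact mem_iInter.1 hz.1 _)
    have a2 := (dist_le_pi_dist _ _ k).trans_lt a1
    have a3 : |(p y).2 k / δ - (p z).2 k / δ| < 1 := by
      rw [← sub_div, abs_div, abs_of_pos hδ0, div_lt_one hδ0]; exact a2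
    obtain ⟨a4, a5⟩ := abs_lt.1 a3
    have b1 := Int.floor_le ((p y).2 k / δ)
    have b2 := Int.floor_le ((p z).2 k / δ)
    have b3 := Int.lt_floor_add_one ((p y).2 k / δ)
    have b4 := Int.lt_floor_add_one ((p z).2 k / δ)
    have c1 : ⌊(p y).2 k / δ⌋ < ⌊(p z).2 k / δ⌋ + 2 := by
      exact_mod_cast (by linarith : (⌊(p y).2 k / δ⌋ : ℝ) < ⌊(p z).2 k / δ⌋ + 2)
    have c2 : ⌊(p z).2 k / δ⌋ < ⌊(p y).2 k / δ⌋ + 2 := by
      exact_mod_cast (by linarith : (⌊(p z).2 k / δ⌋ : ℝ) < ⌊(p y).2 k / δ⌋ + 2)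
    have c3 := iff_of_eq (congrFun e2 k)
    change ⌊(p y).2 k / δ⌋ = ⌊(p z).2 k / δ⌋
    omega
  · obtain ⟨e1, e2⟩ := Prod.mk.inj ((hcel y z).1 h)
    have a1 : dist (p y).2 (p z).2 < δ := (dist_pi_lt_iff hδ0).2 fun k => by
      have a3 := Int.abs_sub_lt_one_of_floor_eq_floor (congrFun e2 k)
      rwa [← sub_div, abs_div, abs_of_pos hδ0, div_lt_one hδ0] at a3
    have a2 := hδ (p y).1 _ (hp1 y) _ a1
    rwa [hp2 y hy, e1, hp2 z hz] at a2

end Vale.Agent.N239X
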