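import Vale.Agent.N239X.Seq
import Vale.Agent.N239X.Met

set_option linter.all false

/-!
# Fine labels and scales
-/

namespace Vale.Agent.N239X

open Vale.Agent.P239Z Set Topology Filter

variable {G X : Type} [Group G] [TopologicalSpace X] [MulAction G X] {e : X → X → ℝ}

theorem IM.leb (he : IM G e) {B : Set X} (hB : IsCompact B) {N : X → Set X}
    (hN : ∀ x, N x ∈ 𝓝 x) : ∃ δ > 0, ∀ x ∈ B, ∃ y, ∀ z, e x z < δ → z ∈ N y := by
  choose r r1 r2 using fun x => he.sep x _ (hN x)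
  obtain ⟨t, -, ht⟩ := hB.elim_nhds_subcover (fun y => {x | e y x < r y / 2}) fun y _ =>
    he.cont y _ (half_pos (r1 y))
  obtain ⟨δ, h1, h2⟩ : ∃ δ > 0, ∀ y ∈ t, δ ≤ r y / 2 := by
    rcases t.eq_empty_or_nonempty with rfl | h
    · exact ⟨1, one_pos, by simp⟩
    · obtain ⟨y, -, hy⟩ := t.exists_min_image (fun y => r y / 2) h
      exact ⟨_, half_pos (r1 y), hy⟩
  refine ⟨δ, h1, fun x hx => ?_⟩
  obtain ⟨y, hy, hxy⟩ := mem_iUnion₂.1 (ht hx)
  exact ⟨y, fun z hz => r2 y z (by linarith [he.tri y x z, h2 y hy, show e y x < _ from hxy])⟩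

theorem IM.closed (he : IM G e) (x : X) (r : ℝ) : IsClosed {y | e x y ≤ r} := by
  rw [← isOpen_compl_iff, isOpen_iff_mem_nhds]
  intro y hy
  refine mem_of_superset (he.cont y (e x y - r) (sub_pos.2 (not_le.1 hy))) fun z hz h => ?_
  linarith [he.tri x z y, he.symm y z, show e y z < _ from hz, show e x z ≤ r from h]

theorem IM.free (he : IM G e) (L : Lab G X) : ∃ ε > 0, ∀ x (g : G), e x (g • x) < ε → g = 1 := by
  obtain ⟨δ, h1, h2⟩ := he.leb L.cpt L.nhd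
  refine ⟨δ, h1, fun x g h => ?_⟩
  obtain ⟨y, hy⟩ := h2 _ (L.mem x)
  have := L.adm y _ (hy _ (by rwa [he.self])) _ (hy ((L.γ x)⁻¹ • g • x) (by rwa [he.inv]))
    (by simp only [L.idx_smul])
  simp only [L.γ_smul] at this
  exact (mul_eq_right.1 (mul_left_cancel this).symm)

theorem IM.nice [ContinuousConstSMul G X] (he : IM G e) (L : Lab G X) {n : ℕ}
    (hch : ∀ x, ∃ j : (Fin n → ℝ) → X, IsOpenEmbedding j ∧ j 0 = x) {ε : ℝ} (hε : 0 < ε) :
    ∃ δ > 0, ∀ x, ∃ W : Set X, ContractibleSpace W ∧ (∀ z, e x z < δ → z ∈ W) ∧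
      ∀ z ∈ W, e x z ≤ ε := by
  have h : ∀ y, ∃ W ∈ 𝓝 y, ContractibleSpace W ∧ ∀ z ∈ W, e y z < ε / 2 := fun y => by
    obtain ⟨j, hj, hy⟩ := hch y
    obtain ⟨i, hi, h1, h2⟩ := exists_small hj ⟨0, hy⟩ (he.cont y _ (half_pos hε))
    exact ⟨_, hi.isOpen_range.mem_nhds h1, hi.isEmbedding.toHomeomorph.symm.contractibleSpace, h2⟩
  choose W w1 w2 w3 using h
  obtain ⟨δ, h1, h2⟩ := he.leb L.cpt w1
  refine ⟨δ, h1, fun x => ?_⟩
  obtain ⟨y, hy⟩ := h2 _ (L.mem x)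
  haveI := w2 y
  refine ⟨(Homeomorph.smul (L.γ x)⁻¹) ⁻¹' W y,
    ((Homeomorph.smul (L.γ x)⁻¹).subtype (q := (· ∈ W y)) fun _ => Iff.rfl).contractibleSpace,
    fun z hz => hy _ (by rwa [Homeomorph.smul_apply, he.inv]), fun z hz => ?_⟩
  have a1 := w3 y _ (hy _ (by rwa [he.self]))
  have a2 : e y ((L.γ x)⁻¹ • z) < _ := w3 y _ hz
  rw [← he.inv (L.γ x)⁻¹]
  linarith [he.tri ((L.γ x)⁻¹ • x) y ((L.γ x)⁻¹ • z), he.symm y ((L.γ x)⁻¹ • x)]

theorem IM.scales [ContinuousConstSMul G X] (he : IM G e) (L : Lab G X) {n : ℕ}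
    (hch : ∀ x, ∃ j : (Fin n → ℝ) → X, IsOpenEmbedding j ∧ j 0 = x) (M : ℕ) {ρ : ℝ}
    (hρ : 0 < ρ) : ∃ η > 0, ∃ ε : ℕ → ℝ, (∀ k, ε k + 4 * η ≤ ρ) ∧ ∀ k < M, ∀ x, ∃ W : Set X,
      ContractibleSpace W ∧ (∀ z, e x z ≤ ε k + 3 * η → z ∈ W) ∧ ∀ z ∈ W, e x z ≤ ε (k + 1) := by
  choose! φ φ1 φ2 using fun ε (hε : 0 < ε) => he.nice L hch hε
  let r : ℕ → ℝ := fun j => Nat.rec (ρ / 3) (fun _ x => min (φ x) x / 3) j
  have r1 : ∀ j, r (j + 1) = min (φ (r j)) (r j) / 3 := fun _ => rfl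
  have r2 : ∀ j, 0 < r j := fun j => by
    induction j with
    | zero => exact div_pos hρ three_pos
    | succ j ih => exact div_pos (lt_min (φ1 _ ih) ih) three_pos
  have r3 : Antitone r := antitone_nat_of_succ_le fun j => by
    linarith [r1 j, min_le_right (φ (r j)) (r j), r2 j]
  have r0 : r 0 = ρ / 3 := rfl
  refine ⟨r M / 3, div_pos (r2 M) three_pos, fun k => r (M - k), fun k => by
    linarith [r3 (Nat.zero_le (M - k)), r3 (Nat.zero_le M)], fun k hk x => ?_⟩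
  obtain ⟨W, w1, w2, w3⟩ := φ2 _ (r2 (M - (k + 1))) x
  refine ⟨W, w1, fun z hz => w2 z ?_, w3⟩
  have := r1 (M - (k + 1))
  rw [show M - (k + 1) + 1 = M - k by omega] at this
  linarith [r3 (Nat.sub_le M k), min_le_left (φ (r (M - (k + 1)))) (r (M - (k + 1))),
    φ1 _ (r2 (M - (k + 1)))]

/-- labels -/
def Lb (m N : ℕ) (G : Type) : Type := Fin m × G × Fin N

instance {m N : ℕ} : MulAction G (Lb m N G) where
  smul g a := (a.1, g * a.2.1, a.2.2)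
  one_smul a := Prod.ext rfl (Prod.ext (one_mul _) rfl)
  mul_smul g h a := Prod.ext rfl (Prod.ext (mul_assoc _ _ _) rfl)

/-- fine labels -/
structure Fn (G : Type) [Group G] [MulAction G X] (e : X → X → ℝ) (m : ℕ) (η : ℝ) where
  N : ℕ
  lab : X → Lb m N G
  c : Lb m N G → X
  R : Finset G
  U : X → Set X
  smul : ∀ (g : G) x, lab (g • x) = g • lab x
  c_smul : ∀ (g : G) a, c (g • a) = g • c a
  nhd : ∀ x, U x ∈ 𝓝 x
  adm : ∀ x, ∀ y ∈ U x, ∀ z ∈ U x, (lab y).1 = (lab z).1 → lab y = lab z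
  sm : ∀ x, ∀ y ∈ U x, ∀ z ∈ U x, (lab y).2.1⁻¹ * (lab z).2.1 ∈ R ∧ e y z < η
  near : ∀ x, e x (c (lab x)) < η

theorem IM.exists_fn [ContinuousConstSMul G X] [T2Space X] [Nonempty X] (he : IM G e)
    (L : Lab G X) {n : ℕ} (hch : ∀ x, ∃ j : (Fin n → ℝ) → X, IsOpenEmbedding j ∧ j 0 = x) :
    ∃ m, ∀ η > 0, Nonempty (Fn G e m η) := by
  classical
  obtain ⟨m, hm⟩ := colouring he hch L.cpt
  refine ⟨L.m * m, fun η hη => ?_⟩
  obtain ⟨N, col, cel, U, u1, u2, u3⟩ := hm η hη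
  let r : X → X := fun x => (L.γ x)⁻¹ • x
  have hr : ∀ (g : G) x, r (g • x) = r x := fun g x => by
    simp only [r, L.γ_smul, mul_inv_rev, mul_smul, inv_smul_smul]
  let lab : X → Lb (L.m * m) N G := fun x =>
    (finProdFinEquiv (L.idx x, col (r x)), L.γ x, cel (r x))
  have hl : ∀ (g : G) x, lab (g • x) = g • lab x := fun g x => by
    simp only [lab, hr, L.idx_smul, L.γ_smul]
    rfl
  let c : Lb (L.m * m) N G → X := fun a =>
    a.2.1 • Classical.epsilon fun x => lab x = a.2.1⁻¹ • a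
  have hc : ∀ (g : G) a, c (g • a) = g • c a := fun g a => by
    change (g * a.2.1) • (Classical.epsilon fun x => lab x = (g * a.2.1)⁻¹ • g • a) = _
    rw [mul_inv_rev, mul_smul _ g⁻¹, inv_smul_smul, mul_smul]
  refine ⟨⟨N, lab, c, L.R, fun x => (L.U x ∩ {y | e x y < η / 2}) ∩ ⋂ g ∈ L.R,
    ((L.γ x * g)⁻¹ • ·) ⁻¹' U ((L.γ x * g)⁻¹ • x), hl, hc, fun x => inter_mem (inter_mem (L.nhd x)
      (he.cont x _ (half_pos hη))) ((biInter_finset_mem _).2 fun g _ =>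
        (continuous_const_smul _).continuousAt (u1 _)), fun x y hy z hz h => ?_,
    fun x y hy z hz => ⟨L.sm x y hy.1.1 z hz.1.1, by
      linarith [he.tri y x z, he.symm x y, show e x y < _ from hy.1.2, show e x z < _ from hz.1.2]⟩,
    fun x => ?_⟩⟩
  · obtain ⟨h1, h2⟩ := Prod.ext_iff.1 (finProdFinEquiv.injective h)
    have h3 := L.adm x y hy.1.1 z hz.1.1 h1
    have h4 := L.sm x x (mem_of_mem_nhds (L.nhd x)) y hy.1.1
    have h5 := mem_iInter₂.1 hy.2 _ h4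
    have h6 := mem_iInter₂.1 hz.2 _ h4
    rw [mul_inv_cancel_left] at h5 h6
    exact Prod.ext h (Prod.ext h3 (u2 _ _ ⟨h5, L.mem y⟩ _ ⟨by rwa [h3] at h6 ⊢, L.mem z⟩ h2))
  · have h1 : lab (c (lab x)) = lab x := by
      change lab (_ • _) = _
      rw [hl, Classical.epsilon_spec (p := fun y => lab y = (lab x).2.1⁻¹ • lab x)
        ⟨_, hl _ x⟩, smul_inv_smul]
    have h2 : L.γ (c (lab x)) = L.γ x := congrArg (·.2.1) h1
    have := u3 _ (L.mem x) _ (L.mem (c (lab x))) (congrArg (·.2.2) h1).symm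
    rwa [h2, he.inv] at this

end Vale.Agent.N239X
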