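import Mathlib

set_option linter.all false

/-!
# Homology of a complex of modules
-/

namespace Vale.Agent.N239X

variable {R : Type} [Ring R] {C : ℕ → Type} [∀ k, AddCommGroup (C k)] [∀ k, Module R (C k)]

/-- cycles -/
def cyc (d : ∀ k, C (k + 1) →ₗ[R] C k) : ∀ k, Submodule R (C k)
  | 0 => ⊤
  | k + 1 => LinearMap.ker (d k)

/-- homology -/
abbrev Hm (d : ∀ k, C (k + 1) →ₗ[R] C k) (k : ℕ) : Type :=
  cyc d k ⧸ (LinearMap.range (d k)).submoduleOf (cyc d k)

end Vale.Agent.N239X
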