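import Vale.Agent.N239X.Bc
import Vale.Agent.N239X.Br

set_option linter.all false

/-!
# The two dimension functions and the two base changes
-/

namespace Vale.Agent.N239X

open Finsupp Vale.Agent.P239 Vale.Agent.P239Z Matrix

/-- the von Neumann dimension -/
noncomputable def dimVN (G : Type) [Group G] : DimFn (VN G) where
  δ M _ _ := (vnData G).tdim M
  t := retr.toAddMonoidHom
  comm := retr_mul_comm
  congr := (vnData G).tdim_congr
  add := (vnData G).tdim_add_quot
  idem {ι M} _ _ _ b e he := by
    classical
    let A : Matrix ι ι (VN G) := fun i j => b.repr (e (b i)) j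
    have h1 : ∀ x, b.equivFun (e x) = b.equivFun x ᵥ* A := fun x => funext fun j => by
      conv_lhs => rw [← b.sum_repr x]
      simp only [A, vecMul, dotProduct, map_sum, Finset.sum_apply, map_smul, Pi.smul_apply,
        smul_eq_mul, Module.Basis.equivFun_apply]
    have hA : A * A = A := by
      ext i j
      exact (congrFun (h1 (e (b i))) j).symm.trans (congrArg (b.repr · j) (he _))
    obtain ⟨T, hT, hTA, happ⟩ := (vnData G).exists_lsupp Aᴴ
    have hAT : A * T = A := by
      have := congrArg Matrix.conjTranspose hTA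
      rwa [Matrix.conjTranspose_mul, hT.2, Matrix.conjTranspose_conjTranspose] at this
    have hAA : Aᴴ * Aᴴ = Aᴴ := by rw [← Matrix.conjTranspose_mul, hA]
    have hT0 : (1 - Aᴴ) * T = 0 := by
      refine (vnData G).mul_eq_zero_of_approx _ _ fun ε hε => ?_
      obtain ⟨X, hX⟩ := happ ε hε
      refine ⟨_, ?_, hX⟩
      rw [← Matrix.mul_assoc, ← Matrix.mul_assoc, Matrix.sub_mul, Matrix.one_mul, hAA, sub_self,
        Matrix.zero_mul, Matrix.zero_mul]
    have hTA' : T * A = T := by
      rw [Matrix.sub_mul, Matrix.one_mul, sub_eq_zero] at hT0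
      have := congrArg Matrix.conjTranspose hT0
      rw [Matrix.conjTranspose_mul, hT.2, Matrix.conjTranspose_conjTranspose] at this
      exact this.symm
    have hTr : (vnData G).Tr A = (vnData G).Tr T := by
      rw [← hAT, (vnData G).Tr_comm, hTA']
    change 0 ≤ (vnData G).Tr A ∧ _ = ENNReal.ofReal ((vnData G).Tr A)
    rw [hTr]
    refine ⟨(vnData G).Tr_proj_nonneg hT, le_antisymm (le_trans ?_ ((vnData G).tdim_eqLocus_le hT))
      ((vnData G).le_tdim T hT (e.rangeRestrict ∘ₗ b.equivFun.symm.toLinearMap) fun x hx h => ?_)⟩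
    · refine (vnData G).tdim_mono ((b.equivFun.toLinearMap ∘ₗ Submodule.subtype _).codRestrict _ ?_)
        fun x y h => Subtype.ext (b.equivFun.injective (congrArg Subtype.val h))
      rintro ⟨_, x, rfl⟩
      change b.equivFun (e x) ᵥ* T = b.equivFun (e x)
      rw [h1, vecMul_vecMul, hAT]
    · have h2 := h1 (b.equivFun.symm x)
      rw [show e (b.equivFun.symm x) = 0 from congrArg Subtype.val h, map_zero,
        LinearEquiv.apply_symm_apply, ← hx, vecMul_vecMul, hTA', hx] at h2
      exact h2.symm

/-- the dimension of complex vector spaces -/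
noncomputable def dimC : DimFn ℂ where
  δ M _ _ := (Cardinal.toENat (Module.rank ℂ M) : ℕ∞)
  t := Complex.reAddGroupHom
  comm a b := by rw [mul_comm]
  congr e := by rw [e.rank_eq]
  add K := by rw [← ENat.toENNReal_add, ← map_add, add_comm, Submodule.rank_quotient_add_rank]
  idem {ι M} _ _ _ b e he := by
    classical
    haveI := Module.Finite.of_basis b
    have h1 : LinearMap.IsProj (LinearMap.range e) e :=
      ⟨fun x => ⟨x, rfl⟩, by rintro _ ⟨x, rfl⟩; exact he x⟩
    have h2 : tau Complex.reAddGroupHom b e = Module.finrank ℂ (LinearMap.range e) := by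
      have := congrArg Complex.re h1.trace
      rw [LinearMap.trace_eq_matrix_trace ℂ b, Matrix.trace, Complex.re_sum] at this
      simpa [tau, LinearMap.toMatrix_apply] using this
    rw [h2, ← Module.finrank_eq_rank ℂ (LinearMap.range e)]
    refine ⟨Nat.cast_nonneg _, ?_⟩
    rw [Cardinal.toENat_nat, ENNReal.ofReal_natCast, ENat.toENNReal_coe]

theorem span_one {S R : Type} [Ring R] :
    Submodule.span R (Set.range fun s : S => (single s 1 : S →₀ R)) = ⊤ := by
  simpa using (Finsupp.basisSingleOne (ι := S) (R := R)).span_eq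

variable {G X : Type} [Group G] [TopologicalSpace X] [MulAction G X] [ContinuousConstSMul G X]

theorem univVN : Univ (X := X) (lamHom G) (C := Chain G X)
    (fun k s => (rel G X k).mkQ (single s 1)) (P239.bd G X) where
  rel k g s := by
    rw [← map_smul, Finsupp.smul_single, smul_eq_mul, mul_one]
    exact (Submodule.Quotient.eq _).2 (Submodule.subset_span ⟨g, s, 1, by rw [one_mul]; rfl⟩)
  lift k N _ _ f hf := ⟨(rel G X k).liftQ (linearCombination _ f) (Submodule.span_le.2 (by
    rintro _ ⟨g, s, a, rfl⟩
    change linearCombination _ f _ = 0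
    rw [map_sub, linearCombination_single, linearCombination_single, hf, mul_smul]
    exact sub_self _)), fun s => (linearCombination_single _ _ _).trans (one_smul _ _)⟩
  span k := by
    rw [show (fun s => (rel G X k).mkQ (single s 1)) = (rel G X k).mkQ ∘ fun s => single s 1 from
      rfl, Set.range_comp, Submodule.span_image, span_one, Submodule.map_top,
      Submodule.range_mkQ]
  bd k s := by
    rw [← bdry_eq, ← bc_dS, bc_single, one_smul, ← map_lc']
    congr 1
    conv_lhs => rw [← lc_self (dS s), map_lc]
    simp only [up_single, one_smul]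

theorem univC {M : Type} [TopologicalSpace M] {p : X → M} (hp : IsQuotientCoveringMap p G) :
    Univ (X := X) (1 : G →* ℂ) (C := fun k => C(stdSimplex ℝ (Fin (k + 1)), M) →₀ ℂ)
      (fun k s => single ((⟨p, hp.continuous⟩ : C(X, M)).comp s) 1) (dM ℂ M) := by
  have hpg : ∀ (γ : G) (x : X), p (γ • x) = p x := fun γ x =>
    hp.apply_eq_iff_mem_orbit.2 ⟨γ, rfl⟩
  refine ⟨fun k g s => ?_, fun k N _ _ f hf => ?_, fun k => ?_, fun k s => ?_⟩
  · rw [MonoidHom.one_apply, one_smul]
    exact congrArg (single · 1) (ContinuousMap.ext fun u => hpg g _)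
  · choose t ht using (lift_simplex hp k).1
    refine ⟨linearCombination ℂ fun s => f (t s), fun s => ?_⟩
    obtain ⟨g, hg⟩ := (lift_simplex hp k).2 s _ fun u =>
      (ht ((⟨p, hp.continuous⟩ : C(X, M)).comp s) u).symm
    rw [linearCombination_single, one_smul, hg, hf, MonoidHom.one_apply, one_smul]
  · rw [eq_top_iff, ← span_one]
    refine Submodule.span_mono ?_
    rintro _ ⟨s, rfl⟩
    obtain ⟨t, ht⟩ := (lift_simplex hp k).1 s
    exact ⟨t, congrArg (single · 1) (ContinuousMap.ext ht)⟩
  · rw [dM, linearCombination_single, one_smul, lc_dS]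
    simp only [Finsupp.smul_single, smul_eq_mul, mul_one]
    rfl

end Vale.Agent.N239X
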