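import Vale.Agent.N239X.Br

set_option linter.all false

/-!
# Rational and complex Betti numbers
-/

namespace Vale.Agent.N239X

open Finsupp Module

variable {S : Type}

/-- extension of coefficients -/
noncomputable def upQ : (S →₀ ℚ) →ₗ[ℚ] (S →₀ ℂ) := mapRange.linearMap (Algebra.linearMap ℚ ℂ)

/-- a coordinate -/
noncomputable def dnQ (φ : ℂ →ₗ[ℚ] ℚ) : (S →₀ ℂ) →ₗ[ℚ] (S →₀ ℚ) := mapRange.linearMap φ

theorem dn_up (φ : ℂ →ₗ[ℚ] ℚ) (a : ℂ) (v : S →₀ ℚ) : dnQ φ (a • upQ v) = φ a • v := by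
  ext s
  change φ (a * (v s : ℂ)) = φ a * v s
  rw [mul_comm, ← Rat.smul_def, map_smul, smul_eq_mul, mul_comm]

theorem mem_of_dn {T : Submodule ℂ (S →₀ ℂ)} {w : S →₀ ℂ} (h : ∀ φ, upQ (dnQ φ w) ∈ T) :
    w ∈ T := by
  classical
  let B := Basis.ofVectorSpace ℚ ℂ
  have : w = ∑ j ∈ w.support.biUnion fun s => (B.repr (w s)).support,
      B j • upQ (dnQ (B.coord j) w) := by
    ext s
    rw [finsetSum_apply]
    conv_lhs => rw [← B.linearCombination_repr (w s), linearCombination_apply]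
    rw [sum_of_support_subset _ (s := w.support.biUnion fun s => (B.repr (w s)).support)]
    · refine Finset.sum_congr rfl fun j _ => ?_
      change _ = B j * (B.repr (w s) j : ℂ)
      rw [Rat.smul_def, mul_comm]
    · intro j hj
      refine Finset.mem_biUnion.2 ⟨s, mem_support_iff.2 fun h => ?_, hj⟩
      simp [h] at hj
    · simp
  rw [this]
  exact T.sum_mem fun j _ => T.smul_mem _ (h _)

theorem rank_sub {V W : Type} [AddCommGroup V] [Module ℚ V] [AddCommGroup W] [Module ℂ W]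
    [Module ℚ W] [IsScalarTower ℚ ℂ W] (upQ : V →ₗ[ℚ] W) (dnQ : (ℂ →ₗ[ℚ] ℚ) → W →ₗ[ℚ] V)
    (dn_up : ∀ φ (a : ℂ) v, dnQ φ (a • upQ v) = φ a • v)
    (mem_of_dn : ∀ {T : Submodule ℂ W} {w}, (∀ φ, upQ (dnQ φ w) ∈ T) → w ∈ T)
    {Z B : Submodule ℚ V} {Z' B' : Submodule ℂ W}
    (h1 : ∀ z ∈ Z, upQ z ∈ Z') (h2 : ∀ z ∈ B, upQ z ∈ B') (h3 : ∀ φ, ∀ z ∈ Z', dnQ φ z ∈ Z)
    (h4 : ∀ φ, ∀ z ∈ B', dnQ φ z ∈ B) :
    Module.rank ℚ (Z ⧸ B.submoduleOf Z) = Module.rank ℂ (Z' ⧸ B'.submoduleOf Z') := by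
  let b := Basis.ofVectorSpace ℚ (Z ⧸ B.submoduleOf Z)
  let u : Z →ₗ[ℚ] Z' :=
    { toFun := fun z => ⟨upQ z.1, h1 _ z.2⟩
      map_add' := fun x y => Subtype.ext (map_add upQ x.1 y.1)
      map_smul' := fun r x => Subtype.ext (map_smul upQ r x.1) }
  let f : (Z ⧸ B.submoduleOf Z) →ₗ[ℚ] (Z' ⧸ B'.submoduleOf Z') := (B.submoduleOf Z).liftQ
    ((B'.submoduleOf Z').mkQ.restrictScalars ℚ ∘ₗ u) fun z hz =>
      (Submodule.Quotient.mk_eq_zero _).2 (h2 _ hz)
  choose z hz using fun i => (B.submoduleOf Z).mkQ_surjective (b i)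
  have hf : ∀ x, f ((B.submoduleOf Z).mkQ x) = (B'.submoduleOf Z').mkQ (u x) := fun _ => rfl
  have l1 : LinearIndependent ℂ fun i => f (b i) := linearIndependent_iff'.2 fun s g h i hi => by
    refine (Module.forall_dual_apply_eq_zero_iff ℚ _).1 fun φ =>
      linearIndependent_iff'.1 b.linearIndependent s (fun i => φ (g i)) ?_ i hi
    simp only [← hz, hf, ← map_smul, ← map_sum] at h ⊢
    have := h4 φ (Z'.subtype _) ((Submodule.Quotient.mk_eq_zero (B'.submoduleOf Z')).1 h)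
    refine (Submodule.Quotient.mk_eq_zero _).2 ?_
    change Z.subtype _ ∈ B
    simp only [map_sum, map_smul Z'.subtype, map_smul Z.subtype] at this ⊢
    simp only [← dn_up]
    exact this
  have l2 : ⊤ ≤ Submodule.span ℂ (Set.range fun i => f (b i)) := fun y _ => by
    obtain ⟨⟨w, hw⟩, rfl⟩ := (B'.submoduleOf Z').mkQ_surjective y
    obtain ⟨x, hx, e⟩ := mem_of_dn (w := w) (T := ((Submodule.span ℂ
      (Set.range fun i => f (b i))).comap (B'.submoduleOf Z').mkQ).map Z'.subtype) fun φ => by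
        refine ⟨u ⟨_, h3 φ w hw⟩, ?_, rfl⟩
        rw [SetLike.mem_coe, Submodule.mem_comap, ← hf,
          ← b.linearCombination_repr (Submodule.mkQ _ _), linearCombination_apply, map_finsuppSum]
        refine Submodule.sum_mem _ fun i _ => ?_
        simp only [map_smul]
        exact Submodule.smul_of_tower_mem _ _ (Submodule.subset_span ⟨i, rfl⟩)
    rwa [← show x = ⟨w, hw⟩ from Subtype.ext e]
  rw [← b.mk_eq_rank'', ← (Basis.mk l1 l2).mk_eq_rank'']

variable (M : Type) [TopologicalSpace M]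

theorem d_up (k : ℕ) (c) : dM ℂ M k (upQ c) = upQ (dM ℚ M k c) := by
  induction c using Finsupp.induction_linear with
  | zero => simp
  | add a b ha hb => simp only [map_add, ha, hb]
  | single s r => simp [dM, upQ, Rat.cast_smul_eq_qsmul]

theorem d_dn (φ : ℂ →ₗ[ℚ] ℚ) (k : ℕ) (c) : dM ℚ M k (dnQ φ c) = dnQ φ (dM ℂ M k c) := by
  induction c using Finsupp.induction_linear with
  | zero => simp
  | add a b ha hb => simp only [map_add, ha, hb]
  | single s r =>
    have h : ∀ (s : C(stdSimplex ℝ (Fin (k + 1 + 1)), M)), (single s r : _ →₀ ℂ) =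
      r • upQ (single s 1) := fun s => by simp [upQ]
    rw [h, dn_up, map_smul, map_smul, d_up, dn_up]

theorem rank_QC (k : ℕ) :
    Module.rank ℚ (Hm (C := fun k => C(stdSimplex ℝ (Fin (k + 1)), M) →₀ ℚ) (dM ℚ M) k) =
    Module.rank ℂ (Hm (C := fun k => C(stdSimplex ℝ (Fin (k + 1)), M) →₀ ℂ) (dM ℂ M) k) := by
  refine rank_sub upQ dnQ dn_up mem_of_dn (fun z hz => ?_) ?_ (fun φ z hz => ?_) fun φ => ?_
  · cases k with
    | zero => trivial
    | succ k => exact (d_up M k z).trans ((congrArg upQ hz).trans (map_zero _))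
  · rintro _ ⟨z, rfl⟩
    exact ⟨_, d_up M k z⟩
  · cases k with
    | zero => trivial
    | succ k => exact (d_dn M φ k z).trans ((congrArg (dnQ φ) hz).trans (map_zero _))
  · rintro _ ⟨z, rfl⟩
    exact ⟨_, d_dn M φ k z⟩

end Vale.Agent.N239X
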