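import Vale.Agent.N239X.Inst
import Vale.Agent.N239X.Qc
import Vale.Agent.N239X.Defs
import Vale.Agent.P239B48.Main

set_option linter.all false

/-!
# The Euler characteristic of a closed aspherical manifold
-/

namespace Vale.Agent.N239X

open Vale.Agent.P239

theorem betti_dim (G X : Type) [Group G] [TopologicalSpace X] [MulAction G X]
    [ContinuousConstSMul G X] (q : ℕ) :
    P239B.betti G X q = (dimVN G).δ (Hm (R := VN G) (C := Chain G X) (P239.bd G X) q) := by
  rw [P239B.betti_eq]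
  cases q with
  | zero => exact (bettiTwo_zero_eq G X).trans (vnDim_eq_tdim _ _)
  | succ q => exact (bettiTwo_succ G X q).trans (vnDim_eq_tdim _ _)

theorem rank_dim (M : Type) [TopologicalSpace M] (q : ℕ) :
    dimC.δ (Hm (C := fun k => C(stdSimplex ℝ (Fin (k + 1)), M) →₀ ℂ) (dM ℂ M) q) =
      (Cardinal.toENat (Module.rank ℚ (HQ M q)) : ℕ∞) := by
  obtain ⟨e⟩ := bridge ℚ M q
  rw [← e.rank_eq, rank_QC]
  rfl

theorem euler_eq (n : ℕ) {M X G : Type} [TopologicalSpace M] [T2Space M] [CompactSpace M]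
    [ChartedSpace (EuclideanSpace ℝ (Fin n)) M] [TopologicalSpace X] [ContractibleSpace X]
    [Group G] [MulAction G X] [ContinuousConstSMul G X] {p : X → M}
    (hp : IsQuotientCoveringMap p G) :
    (∀ q, Module.Finite ℚ (HQ M q)) ∧ {q | Nontrivial (HQ M q)}.Finite ∧
      (∀ q, P239B.betti G X q ≠ ⊤) ∧ {q | P239B.betti G X q ≠ 0}.Finite ∧
      (euler M : ℝ) = ∑ᶠ q : ℕ, (-1) ^ q * (P239B.betti G X q).toReal := by
  obtain ⟨L, _, m, ⟨P⟩⟩ := exists_pack n hp
  obtain ⟨a1, a2, a3⟩ := P.euler _ univVN (dimVN G) fun z => by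
    change (tr (z • 1)).re = _
    rw [tr_smul, tr_one, mul_one]
  obtain ⟨b1, b2, b3⟩ := P.euler _ (univC hp) dimC fun z => by simp [dimC]
  simp only [← betti_dim] at a1 a2 a3
  simp only [rank_dim] at b1 b2 b3
  have f1 : ∀ q, Module.Finite ℚ (HQ M q) := fun q => Module.rank_lt_aleph0_iff.1 (by
    simpa using b1 q)
  simp only [← Module.finrank_eq_rank ℚ (HQ M _), Cardinal.toENat_nat, ENat.toENNReal_coe,
    ENNReal.toReal_natCast, Nat.cast_eq_zero] at b2 b3
  refine ⟨f1, (Set.finite_le_nat m).subset fun q hq => (not_lt (a := m) (b := q)).1 fun h => ?_, a1,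
    (Set.finite_le_nat m).subset fun q hq => (not_lt (a := m) (b := q)).1 fun h => hq (a2 q h), ?_⟩
  · exact not_subsingleton_iff_nontrivial.2 hq (Module.finrank_zero_iff.1 (b2 q h))
  rw [euler, finsum_eq_sum_of_support_subset (s := Finset.range (m + 1)),
    finsum_eq_sum_of_support_subset (s := Finset.range (m + 1)), a3, ← b3]
  · push_cast
    rfl
  all_goals
    intro q hq
    rw [Finset.coe_range, Set.mem_Iio]
    by_contra h
    exact hq (by simp [a2 q (by omega), b2 q (by omega)])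

open P239B in
theorem euler_cover (n : ℕ) (M : Type) [TopologicalSpace M] [T2Space M] [CompactSpace M]
    [ConnectedSpace M] [ChartedSpace (EuclideanSpace ℝ (Fin n)) M] (hM : Aspherical.{0} M)
    (X : Type) [TopologicalSpace X] (p : X → M) (hp : IsUniversalCover p) (x₀ : X)
    (a : MulAction (FundamentalGroup M (p x₀)) X) (h : IsDeckAction hp.cov x₀ a) :
    (∀ q, Module.Finite ℚ (HQ M q)) ∧ {q | Nontrivial (HQ M q)}.Finite ∧
      (∀ q, h.betti q ≠ ⊤) ∧ {q | h.betti q ≠ 0}.Finite ∧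
      (euler M : ℝ) = ∑ᶠ q : ℕ, (-1) ^ q * (h.betti q).toReal := by
  have := ChartedSpace.locallyPathConnectedSpace (EuclideanSpace ℝ (Fin n)) M
  have : PathConnectedSpace M := pathConnectedSpace_iff_connectedSpace.2 inferInstance
  have := (cover_main n M X p hp x₀).1.1 hM
  obtain ⟨b, hb, h1, -⟩ := deck_exists hp x₀
  obtain rfl := deck_unique hp h hb
  have := h.cont
  exact euler_eq n h1

open P239B in
theorem euler_four (M : Type) [TopologicalSpace M] [T2Space M] [CompactSpace M]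
    [ConnectedSpace M] [ChartedSpace (EuclideanSpace ℝ (Fin 4)) M] (hM : Aspherical.{0} M)
    (X : Type) [TopologicalSpace X] (p : X → M) (hp : IsUniversalCover p) (x₀ : X)
    (a : MulAction (FundamentalGroup M (p x₀)) X) (h : IsDeckAction hp.cov x₀ a) :
    (∀ q, q ≠ 2 → h.betti q = 0) ∧ h.betti 2 ≠ ⊤ ∧ (h.betti 2).toReal = euler M := by
  have h1 : ∀ q, q ≠ 2 → h.betti q = 0 := fun q hq =>
    (((cover_main 4 M X p hp x₀).2.2 a h).2 hM (by norm_num) q (by omega))
  obtain ⟨-, -, h2, -, h3⟩ := euler_cover 4 M hM X p hp x₀ a h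
  refine ⟨h1, h2 2, ?_⟩
  rw [h3, finsum_eq_single _ 2 fun q hq => by simp [h1 q hq]]
  simp

open P239B in
theorem exists_data (n : ℕ) (M : Type) [TopologicalSpace M] [T2Space M] [CompactSpace M]
    [ConnectedSpace M] [ChartedSpace (EuclideanSpace ℝ (Fin n)) M] :
    ∃ (X : Type) (_ : TopologicalSpace X) (p : X → M) (hp : IsUniversalCover p) (x₀ : X),
      ∃ a, IsDeckAction hp.cov x₀ a := by
  obtain ⟨X, _, p, hp⟩ := exists_cover (n := n) M
  have := hp.sc
  obtain ⟨x₀⟩ : Nonempty X := inferInstance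
  exact ⟨X, _, p, hp, x₀, (cover_main n M X p hp x₀).2.1.exists⟩

end Vale.Agent.N239X
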