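import Vale.Agent.N239X.Cyl

set_option linter.all false

/-!
# A controlled finite domination of the singular chains
-/

namespace Vale.Agent.N239X

open Finsupp Vale.Agent.P239 Vale.Agent.P239.M Vale.Agent.P239Z Set Topology Filter

/-- a finite domination with a controlled idempotent -/
structure Pack (G X L : Type) [Group G] [TopologicalSpace X] [MulAction G X]
    [ContinuousConstSMul G X] [MulAction G L] (m : ℕ) where
  κ : List L → G
  Gd : List L → Prop
  u : ∀ p, Sx X p → Ch ℂ L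
  d : ∀ p, List L → Sx X p →₀ ℂ
  h : ∀ p, Sx X p → Sx X (p + 1) →₀ ℂ
  a : List L → Ch ℂ L
  H : List L → Ch ℂ L
  κ_smul : ∀ (g : G) l, l ≠ [] → κ (g • l) = g * κ l
  Gd_smul : ∀ (g : G) l, Gd l → Gd (g • l)
  Gd_sub : ∀ l l', Gd l → l'.Sublist l → Gd l'
  fin : ∀ k, {l | Gd l ∧ l.length = k + 1 ∧ κ l = 1}.Finite
  top : ∀ l, Gd l → l.length ≤ m
  ue : ∀ p, Equi G (u p)
  de : ∀ p, Equi G (d (p + 1))
  he : ∀ p, Equi G (h p)
  He : Equi G H
  us : ∀ p s, Sup (fun l => Gd l ∧ l.length = p) (u p s)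
  uc : ∀ p s, M.bd (u (p + 1) s) = lc (u p) (dS s)
  dc : ∀ p l, lc dS (d (p + 1) l) = lc (d p) (bdL ℂ l)
  h0 : ∀ s, h 0 s = 0
  hs : ∀ p s, lc dS (h (p + 1) s) = single s 1 - lc (d (p + 1)) (u (p + 1) s) - lc (h p) (dS s)
  H0 : H [] = 0
  Hs : ∀ l, Gd l → l ≠ [] → Sup (fun l' => Gd l' ∧ l'.length = l.length + 1) (H l)
  Hc : ∀ l, Gd l → l ≠ [] →
    M.bd (H l) = a l - lc (u l.length) (d l.length l) - lc H (bdL ℂ l)
  diag : ∀ l, Gd l → l ≠ [] → ∀ g : G, g • l ∈ (a l).support → g = 1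

variable {G X Y : Type} [Group G] [TopologicalSpace X] [MulAction G X] [ContinuousConstSMul G X]
  [ContractibleSpace X] [TopologicalSpace Y] [T2Space Y] [CompactSpace Y]

theorem exists_pack (n : ℕ) [ChartedSpace (EuclideanSpace ℝ (Fin n)) Y] {p : X → Y}
    (hp : IsQuotientCoveringMap p G) :
    ∃ (L : Type) (_ : MulAction G L) (m : ℕ), Nonempty (Pack G X L m) := by
  have hM : SecondCountableTopology Y :=
    ChartedSpace.secondCountable_of_sigmaCompact (EuclideanSpace ℝ (Fin n)) Y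
  have hm := H260.metrizable_of_cover hp
  have hlc := (H260.exists_cocomp hp).1
  have hch := H260.chart_of_cover hp n
  have hcf := cfill_of_cover n hp
  obtain ⟨L⟩ := exists_lab hp
  obtain ⟨e, he⟩ : ∃ e : X → X → ℝ, IM G e := by
    letI : MetricSpace X := TopologicalSpace.metrizableSpaceMetric X
    exact exists_IM L.cpt (fun x => ⟨_, L.mem x⟩) (H260.coAct_of_cover hp).proper
  obtain ⟨ρ, hρ, r1⟩ := he.free L
  obtain ⟨m, hF⟩ := he.exists_fn L hch
  obtain ⟨η, hη, ε, e1, e2⟩ := he.scales L hch (m + 1) hρ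
  obtain ⟨F⟩ := hF η hη
  obtain ⟨T, hT⟩ := exists_dom L hcf
  obtain ⟨b, -, b1, -, b2, ⟨s₀, b3⟩, -⟩ := exists_seq L.γ_smul hT
  obtain ⟨R, α, a1, a2, a3⟩ := exists_alpha hcf (m + 1)
  haveI : IsEmpty (stdSimplex ℝ (Fin 0)) := ⟨fun t => by simpa using stdSimplex.sum_eq_one t⟩
  have hl : ∀ {p} (s : Sx X p), (lbl L.γ s).length = p := fun s => List.length_ofFn
  let π : List (Lb m F.N G) → List G := List.map (·.2.1)
  let d : ∀ p, List (Lb m F.N G) → Sx X p →₀ ℂ := fun p l => b p (π l)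
  have d1 : ∀ p, Equi G (d (p + 1)) := fun p g l => by
    simp only [d, π, map_smul']
    exact b1 p g _
  have d2 : ∀ p l, lc dS (d (p + 1) l) = lc (d p) (bdL ℂ l) := fun p l => by
    simp only [d, π]
    rw [b2, ← pf_bdL, SupA.eq_ext' (pf _)]
    erw [map_lc]
    simp only [pf_single, lc_single, one_smul]
  let A : ∀ p, Sx X p → Ch ℂ G := fun p s => α (lbl L.γ s)
  have A0 : ∀ s, A 0 s = single [] 1 := fun s => a2
  have A1 : ∀ p, Equi G (A p) := fun p g s => by
    simp only [A, lbl_smul L.γ_smul]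
    exact a1 g _
  have A2 : ∀ p ≤ m, ∀ s, M.bd (A (p + 1) s) = lc (A p) (dS s) := fun p h s => by
    rw [(a3 _ (by rw [hl]; omega)).1, bdL_lbl, map_lc]
    simp only [lc_single, one_smul, A]
  have A3 : ∀ p ≤ m + 1, ∀ s, Sup (fun l => l.length = p ∧ SmG R l) (A p s) := fun p h s => by
    have := (a3 (lbl L.γ s) (by rwa [hl])).2
    rwa [hl] at this
  let Ψ' : ℕ → List (Lb m F.N G) → Ch ℂ G := fun p l => lc (A p) (d p l)
  have P0 : Ψ' 0 [] = single [] 1 := by
    change lc _ (b 0 []) = _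
    rw [b3, lc_single, one_smul, A0]
  obtain ⟨ψ, a, H, c1, c2, c3, c4, c5, c6⟩ := exists_cyl he F e2 (R := R)
    (Ψ := fun l => Ψ' l.length l) (fun g l => by
      cases l with
      | nil => exact P0.trans ((act_single g [] 1).symm.trans (congrArg _ P0.symm))
      | cons x l =>
        simp only [length_smul]
        exact (d1 _).comp (A1 _) g _) P0 fun l h => ⟨by
      cases l with
      | nil => simp [P0, bd_single, bdL]
      | cons x l =>
        rw [lc_congr (v := Ψ' l.length) fun l' hl' => by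
          rw [show l'.length = l.length from Nat.succ_injective (sup_bdL _ l' hl').2]]
        change M.bd (lc (A (l.length + 1)) (d (l.length + 1) _)) = _
        rw [map_lc, funext (A2 _ (Nat.le_of_succ_le h.le)), ← map_lc, d2, map_lc],
      sup_lc fun s _ => A3 _ (h.le.trans m.le_succ) s⟩
  let χ : ∀ p, Sx X p → Ch ℂ X := fun p s => lc ψ (A p s)
  have x1 : ∀ p ≤ m + 1, ∀ s, Sup (fun l => F.Sl l ∧ l.length = p) (χ p s) := fun p h s =>
    sup_lc fun l hl => by
      obtain ⟨h1, h2⟩ := A3 p h s l hl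
      exact h1 ▸ (c5 l h2 (by omega)).2
  have x2 : ∀ p ≤ m + 1, ∀ s, Sup (fun l => F.Gd l ∧ l.length = p) (F.bb (χ p s)) :=
    fun p h s => F.sup_bb he (x1 p h s) fun l t h1 h2 h3 _ => ⟨h2, h3.trans h1⟩
  have x3 : ∀ p ≤ m, ∀ s, M.bd (F.bb (χ (p + 1) s)) = lc (fun s => F.bb (χ p s)) (dS s) :=
    fun p h s => by
      rw [F.bd_bb ((x1 _ (by omega) s).mono fun _ h => h.1), ← map_lc, ← map_lc, ← A2 p h,
        lc_bd, map_lc]
      congr 1
      exact lc_congr fun l hl => (c5 l (A3 _ (by omega) s l hl).2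
        (by rw [(A3 _ (by omega) s l hl).1]; omega)).1
  let u : ∀ p, Sx X p → Ch ℂ (Lb m F.N G) := fun p s => if p ≤ m then F.bb (χ p s) else 0
  have u0 : ∀ p ≤ m, u p = fun s => F.bb (χ p s) := fun p h => funext fun s => if_pos h
  have u0' : ∀ p, ¬p ≤ m → u p = fun s => 0 := fun p h => funext fun s => if_neg h
  have u1 : ∀ p, Equi G (u p) := fun p => by
    by_cases h : p ≤ m
    · rw [u0 p h]
      exact fun g s => by simp only [χ, A1 p g s, c1.lc_act, F.bb_act]
    · rw [u0' p h]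
      exact equi_zero
  have u2 : ∀ p s, M.bd (u (p + 1) s) = lc (u p) (dS s) := fun p s => by
    by_cases h : p ≤ m
    · rw [u0 p h, ← x3 p h]
      by_cases h' : p + 1 ≤ m
      · rw [u0 _ h']
      · rw [u0' _ h']
        congr 1
        refine (support_eq_empty.1 (Finset.eq_empty_of_forall_notMem fun l hl => h' ?_)).symm
        obtain ⟨h1, h2⟩ := x2 _ (by omega) s l hl
        exact h2 ▸ h1.le
    · rw [u0' p h, u0' _ (by omega), lc_zero, map_zero]
  obtain ⟨h, h1, h2, h3⟩ := exists_htp L.γ_smul (fun p s => lc (d p) (u p s))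
    (fun p => (u1 _).comp (d1 p)) (fun p s => by
      rw [map_lc, funext (d2 p), ← lc_bd, u2, map_lc]) fun s => by
      rw [u0 0 m.zero_le]
      simp only [χ, A0, lc_single, one_smul, c3, F.bb_nil]
      exact b3.trans (congrArg (single · 1) (ContinuousMap.ext fun u => isEmptyElim u))
  refine ⟨_, inferInstance, m, ⟨⟨kL, F.Gd, u, d, h, fun l => F.bb (a l), fun l => F.bb (H l),
    fun g l => kL_smul g, fun g l h => h.smul he g, fun l l' => Fn.Gd.sub, Fn.Gd.fin,
    fun l => Fn.Gd.le, u1, d1, h1, fun g l => by simp only [c2 g l, F.bb_act], fun p s => ?_, u2, d2, h2,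
    h3, by rw [c4, map_zero], fun l hl h0 => F.sup_bb he (c6 l hl h0).2.1
      fun l' t h1 h2 h3 _ => ⟨h2, h3.trans h1⟩, fun l hl h0 => ?_, fun l hl h0 g hg => ?_⟩⟩⟩
  · by_cases h : p ≤ m
    · rw [u0 p h]
      exact x2 p (by omega) s
    · rw [u0' p h]
      exact Sup.zero
  · rw [F.bd_bb ((c6 l hl h0).2.1.mono fun _ h => h.1), (c6 l hl h0).1, map_sub, map_sub,
      u0 _ hl.le]
    simp only [Ψ', χ, map_lc]
  · obtain ⟨b, hb⟩ := List.exists_mem_of_ne_nil l h0
    obtain ⟨x, ⟨b', b1, b2⟩, hx⟩ := F.sup_bb he (c6 l hl h0).2.2 (Q := fun t => ∀ a ∈ t,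
      ∃ x, (∃ b ∈ l, e (F.c b) x ≤ ε l.length) ∧ F.lab x = a) (fun l' t h1 _ _ h4 a ha => by
        obtain ⟨x, x1, x2⟩ := h4 a ha
        exact ⟨x, h1 x x1, x2⟩) _ hg _ (List.mem_map_of_mem hb)
    have := F.near x
    rw [hx, F.c_smul] at this
    refine r1 (F.c b) g ?_
    linarith [he.tri (F.c b) (F.c b') (g • F.c b), he.tri (F.c b') x (g • F.c b),
      (hl.2 b hb b' b1).2, e1 l.length]

end Vale.Agent.N239X
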