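import Vale.Agent.P239Z.Main

set_option linter.all false

/-!
# Equivariant realisation of cells by small lists of points, with carriers
-/

namespace Vale.Agent.N239X

open Finsupp Vale.Agent.P239 Vale.Agent.P239.M Vale.Agent.P239Z Set Topology Filter

theorem sup_lc {S Y : Type*} {P : List Y → Prop} {f : S → Ch ℂ Y} {c : S →₀ ℂ}
    (h : ∀ s ∈ c.support, Sup P (f s)) : Sup P (lc f c) := by
  rw [← on_iff, lc, linearCombination_apply]
  exact Submodule.sum_mem _ fun s hs => Submodule.smul_mem _ _ (on_iff.2 (h s hs))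

theorem fill_in {X : Type} [TopologicalSpace X] {W C : Set X} [ContractibleSpace W]
    (hC : IsClosed C) (hCW : C ⊆ W) {U : X → Set X} (hU : ∀ x, U x ∈ 𝓝 x) :
    ∃ V : X → Set X, (∀ x, V x ∈ 𝓝 x) ∧ ∀ (n : ℕ) (z : Ch ℂ X),
      Sup (fun l => l.length = n ∧ (∀ x ∈ l, x ∈ C) ∧ ∃ y, ∀ x ∈ l, x ∈ V y) z → M.bd z = 0 →
      ∃ w, M.bd w = z ∧
        Sup (fun l => l.length = n + 1 ∧ (∀ x ∈ l, x ∈ W) ∧ ∃ y, ∀ x ∈ l, x ∈ U y) w := by
  classical
  obtain ⟨x₀, ⟨H⟩⟩ := id_nullhomotopic W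
  obtain ⟨V, hV, hf⟩ := TF.exists_fill (F := ℂ) H.continuous H.apply_zero H.apply_one
    (U := fun y : W => Subtype.val ⁻¹' U y) fun y => continuous_subtype_val.continuousAt (hU y)
  let r : X → W := fun x => if h : x ∈ W then ⟨x, h⟩ else x₀
  have hr : ∀ x (h : x ∈ W), r x = ⟨x, h⟩ := fun x h => dif_pos h
  refine ⟨fun y => if h : y ∈ W then {x | ∀ hx : x ∈ W, ⟨x, hx⟩ ∈ V ⟨y, h⟩} else Cᶜ, fun y => ?_,
    fun n z hz hb => ?_⟩
  · dsimp only
    split_ifs with h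
    · obtain ⟨t, ht, h'⟩ := (mem_nhds_subtype _ _ _).1 (hV ⟨y, h⟩)
      exact mem_of_superset ht fun x hx _ => h' hx
    · exact hC.isOpen_compl.mem_nhds fun h' => h (hCW h')
  obtain ⟨w, w1, w2⟩ := hf n (pf r z) (on_iff.2 (Sup.pf _ (hz.mono fun l ⟨a1, a2, y, a3⟩ =>
    ⟨by simpa using a1, r y, fun x hx => by
      obtain ⟨x, hx', rfl⟩ := List.mem_map.1 hx
      have a4 := a3 x hx'
      by_cases h : y ∈ W
      · simp only [dif_pos h] at a4
        rw [hr _ h, hr _ (hCW (a2 x hx'))]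
        exact a4 _
      · simp only [dif_neg h] at a4
        exact absurd (a2 x hx') a4⟩))) (by rw [bdy_eq, bd_pf, hb, map_zero])
  refine ⟨pf Subtype.val w, ?_, Sup.pf _ ((on_iff.1 w1).mono fun l ⟨a1, y, a2⟩ =>
    ⟨by simpa using a1, fun x hx => ?_, y, fun x hx => ?_⟩)⟩
  · rw [bd_pf, ← bdy_eq, w2, pf_pf, SupA.eq_ext' (pf _)]
    refine (lc_congr fun l hl => ?_).trans (lc_self z)
    rw [pf_single, List.map_congr_left (g := id) fun x hx => by
      rw [hr _ (hCW ((hz l hl).2.1 x hx))]; rfl, List.map_id]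
  · obtain ⟨x, _, rfl⟩ := List.mem_map.1 hx
    exact x.2
  · obtain ⟨x, hx', rfl⟩ := List.mem_map.1 hx
    exact a2 x hx'

/-- cells with carriers -/
structure Cells (G : Type) {X S : Type} [Group G] [TopologicalSpace X] [MulAction G X]
    [MulAction G S] (N : ℕ) (deg : S → ℕ) (D : S → Prop) (κ : S → G) (δ : S → S →₀ ℂ)
    (C : S → Set X) : Prop where
  deg_smul : ∀ (g : G) s, deg (g • s) = deg s
  D_smul : ∀ (g : G) s, D s → D (g • s)
  κ_smul : ∀ (g : G) s, D s → deg s ≠ 0 → κ (g • s) = g * κ s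
  equi : Equi G δ
  face : ∀ s, D s → deg s ≤ N → ∀ t ∈ (δ s).support, D t ∧ deg t + 1 = deg s
  dd : ∀ s, D s → deg s ≤ N → lc δ (δ s) = 0
  closed : ∀ s, IsClosed (C s)
  C_smul : ∀ (g : G) s, D s → deg s ≠ 0 → ∀ x ∈ C s, g • x ∈ C (g • s)
  fin : ∀ k, {s | D s ∧ deg s = k + 1 ∧ κ s = 1}.Finite
  nice : ∀ s, D s → deg s ≠ 0 → deg s ≤ N → ∃ W : Set X, ContractibleSpace W ∧ W ⊆ C s ∧
    ∀ t ∈ (δ s).support, deg t ≠ 0 → C t ⊆ W

theorem Cells.realize {G X S : Type} [Group G] [TopologicalSpace X] [MulAction G X]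
    [ContinuousConstSMul G X] [Nonempty X] [MulAction G S] {N : ℕ} {deg : S → ℕ} {D : S → Prop}
    {κ : S → G} {δ : S → S →₀ ℂ} {C : S → Set X} (h : Cells G N deg D κ δ C) (k : ℕ)
    (hk : k ≤ N) : ∀ U : X → Set X, (∀ x, U x ∈ 𝓝 x) → ∃ ψ : S → Ch ℂ X, Equi G ψ ∧
      (∀ s, deg s = 0 → ψ s = single [] 1) ∧ ∀ s, D s → deg s ≤ k → M.bd (ψ s) = lc ψ (δ s) ∧
        Sup (fun l => l.length = deg s ∧ (∀ x ∈ l, x ∈ C s) ∧
          ∃ y, ∀ x ∈ l, (κ s)⁻¹ • x ∈ U y) (ψ s) := by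
  classical
  induction k with
  | zero =>
    refine fun U _ => ⟨fun _ => single [] 1, fun g s => by rw [act_single]; rfl, fun _ _ => rfl,
      fun s hs h0 => ⟨?_, Sup.single 1 ⟨by simp; omega, by simp, by simp⟩⟩⟩
    rw [show δ s = 0 from support_eq_empty.1 (Finset.eq_empty_of_forall_notMem fun t ht => by
      have := (h.face s hs (by omega) t ht).2; omega)]
    simp [bd_single, bdL]
  | succ k ih =>
    intro U hU
    have hV : ∀ s, ∃ V : X → Set X, (∀ x, V x ∈ 𝓝 x) ∧ (D s → deg s = k + 1 → ∀ z : Ch ℂ X,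
        Sup (fun l => l.length = k ∧ (∀ x ∈ l, ∃ t ∈ (δ s).support, deg t ≠ 0 ∧ x ∈ C t) ∧
          ∃ y, ∀ x ∈ l, x ∈ V y) z → M.bd z = 0 → ∃ w, M.bd w = z ∧ Sup (fun l =>
            l.length = k + 1 ∧ (∀ x ∈ l, x ∈ C s) ∧ ∃ y, ∀ x ∈ l, x ∈ U y) w) := fun s => by
      by_cases hs : D s ∧ deg s = k + 1
      · obtain ⟨W, w1, w2, w3⟩ := h.nice s hs.1 (by omega) (by omega)
        obtain ⟨V, v1, v2⟩ := fill_in (W := W)
          (C := ⋃ t ∈ (δ s).support.filter (deg · ≠ 0), C t)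
          (isClosed_biUnion_finset fun t _ => h.closed t) (iUnion₂_subset fun t ht =>
            w3 t (Finset.mem_filter.1 ht).1 (Finset.mem_filter.1 ht).2) hU
        refine ⟨V, v1, fun _ _ z hz hb => ?_⟩
        obtain ⟨w, a1, a2⟩ := v2 k z (hz.mono fun l ⟨b1, b2, b3⟩ => ⟨b1, fun x hx => by
          obtain ⟨t, t1, t2, t3⟩ := b2 x hx
          exact mem_iUnion₂.2 ⟨t, Finset.mem_filter.2 ⟨t1, t2⟩, t3⟩, b3⟩) hb
        exact ⟨w, a1, a2.mono fun l ⟨b1, b2, b3⟩ => ⟨b1, fun x hx => w2 (b2 x hx), b3⟩⟩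
      · exact ⟨fun _ => univ, fun _ => univ_mem, fun a b => absurd ⟨a, b⟩ hs⟩
    choose V hV hf using hV
    obtain ⟨ψ, h1, h2, h3⟩ := ih (by omega) (fun y => U y ∩ ⋂ s ∈ (h.fin k).toFinset,
        ⋂ t ∈ (δ s).support, (κ t • ·) ⁻¹' V s (κ t • y)) fun y =>
      inter_mem (hU y) ((biInter_finset_mem _).2 fun s _ => (biInter_finset_mem _).2 fun t _ =>
        (continuous_const_smul _).continuousAt (hV _ _))
    obtain ⟨e, e1, e2, -⟩ := exists_equi (G := G) (D := fun s => D s ∧ deg s = k + 1) (κ := κ)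
      (fun g s hs => ⟨h.D_smul g s hs.1, (h.deg_smul g s).trans hs.2⟩)
      (fun g s hs => h.κ_smul g s hs.1 (by omega))
      (P := fun s w => M.bd w = lc ψ (δ s) ∧ Sup (fun l => l.length = k + 1 ∧
        (∀ x ∈ l, x ∈ C s) ∧ ∃ y, ∀ x ∈ l, (κ s)⁻¹ • x ∈ U y) w)
      (fun g s w hs _ hw => ⟨by rw [bd_act, hw.1, h.equi g s, h1.lc_act],
        sup_act g hw.2 fun l ⟨a1, a2, y, a3⟩ => ⟨(length_smul g l).trans a1, fun x hx => by
          obtain ⟨x, hx', rfl⟩ := List.mem_map.1 hx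
          exact h.C_smul g s hs.1 (by omega) x (a2 x hx'), y, fun x hx => by
          obtain ⟨x, hx', rfl⟩ := List.mem_map.1 hx
          rw [h.κ_smul g s hs.1 (by omega), mul_inv_rev, mul_smul, inv_smul_smul]
          exact a3 x hx'⟩⟩)
      fun s hs hs1 => by
        have hf' := fun t ht => h.face s hs.1 (by omega) t ht
        obtain ⟨w, w1, w2⟩ := hf s hs.1 hs.2 (lc ψ (δ s)) (sup_lc fun t ht =>
          (h3 t (hf' t ht).1 (by have := (hf' t ht).2; omega)).2.mono fun l ⟨a1, a2, y, a3⟩ =>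
            ⟨by have := (hf' t ht).2; omega, fun x hx => ⟨t, ht, fun h0 => by
              rw [List.eq_nil_of_length_eq_zero (a1.trans h0)] at hx
              simp at hx, a2 x hx⟩, κ t • y, fun x hx => by
              have a4 := mem_iInter₂.1 (mem_iInter₂.1 (a3 x hx).2 s
                ((h.fin k).mem_toFinset.2 ⟨hs.1, hs.2, hs1⟩)) t ht
              rwa [mem_preimage, smul_inv_smul] at a4⟩) (by
          rw [map_lc, lc_congr (v := fun t => lc ψ (δ t)) fun t ht =>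
            (h3 t (hf' t ht).1 (by have := (hf' t ht).2; omega)).1, ← map_lc (lc ψ),
            h.dd s hs.1 (by omega), map_zero])
        exact ⟨w, w1, by simpa only [hs1, inv_one, one_smul] using w2⟩
    refine ⟨fun s => if deg s ≤ k then ψ s else e s, fun g s => ?_, fun s hs => by
      simp only [if_pos (show deg s ≤ k by omega), h2 s hs], fun s hs hd => ?_⟩
    · simp only [h.deg_smul]
      split_ifs
      exacts [h1 g s, e1 g s]
    rw [lc_congr (v := ψ) fun t ht => if_pos (by have := (h.face s hs (by omega) t ht).2; omega)]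
    by_cases h' : deg s ≤ k
    · simp only [if_pos h']
      exact ⟨(h3 s hs h').1, (h3 s hs h').2.mono fun l ⟨a1, a2, y, a3⟩ =>
        ⟨a1, a2, y, fun x hx => (a3 x hx).1⟩⟩
    · simp only [if_neg h']
      have h'' : deg s = k + 1 := by omega
      rw [h'']
      exact e2 s ⟨hs, h''⟩

end Vale.Agent.N239X
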