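import Vale.Agent.N239X.Real

set_option linter.all false

/-!
# Singular chains are dominated by the chains of the group
-/

namespace Vale.Agent.N239X

open Finsupp Vale.Agent.P239 Vale.Agent.P239.M Vale.Agent.P239Z

variable {G X : Type} [Group G] [TopologicalSpace X] [MulAction G X] [ContinuousConstSMul G X]
  [ContractibleSpace X] {κ : X → G} {T : List G → Ch ℂ G} {R : Finset G} {d : ℕ}

theorem st_zero (hT : Dom R d T) :
    ∃ b b', St κ T 0 b b' (fun _ => 0) ∧ ∃ s, b [] = single s 1 := by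
  obtain ⟨x₀⟩ : Nonempty X := inferInstance
  haveI : IsEmpty (stdSimplex ℝ (Fin 0)) := ⟨fun t => by simpa using stdSimplex.sum_eq_one t⟩
  have hs : ∀ s t : Sx X 0, s = t := fun s t => ContinuousMap.ext fun u => isEmptyElim u
  have h0 : ∀ s : Sx X 1, dS s = single (ContinuousMap.const _ x₀) 1 := fun s => by
    rw [dS, Fin.sum_univ_one, hs (fc _ _) (ContinuousMap.const _ x₀)]
    rfl
  let b : List G → Sx X 0 →₀ ℂ := fun l =>
    if l.length = 0 then single (ContinuousMap.const _ x₀) 1 else 0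
  let b' : List G → Sx X 1 →₀ ℂ := fun l =>
    if l.length = 1 then single (hd l • ContinuousMap.const _ x₀) 1 else 0
  have h1 : ∀ l, lc dS (b' l) = lc b (bdL ℂ l) := fun l => by
    by_cases hl : l.length = 1
    · obtain ⟨g, rfl⟩ := List.length_eq_one_iff.1 hl
      simp [b, b', bdL, h0]
    · rw [show b' l = 0 from if_neg hl, map_zero, lc_congr (v := fun _ => 0), lc_zero]
      exact fun l' hl' => if_neg (by have := (sup_bdL l l' hl').2; omega)
  refine ⟨b, b', ⟨fun g l => ?_, equi_zero, fun l hl => if_neg hl, h1, fun s => ?_⟩, _, if_pos rfl⟩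
  · simp only [b', length_smul]
    split_ifs with hl
    · rw [act_single, hd_smul g (ne_nil_of_length hl), mul_smul]
    · rw [map_zero]
  · rw [lc_zero, sub_zero, map_sub, lc_single, one_smul, map_lc]
    simp only [h1]
    rw [← lc_bd, hT.chain, bdL_lbl, h0, lc_single, one_smul, lc_single, one_smul]
    change _ - lc b (T []) = 0
    rw [hT.nil, lc_single, one_smul]
    exact sub_self _

theorem exists_seq (hκ : ∀ (g : G) x, κ (g • x) = g * κ x) (hT : Dom R d T) :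
    ∃ (b : ∀ p, List G → Sx X p →₀ ℂ) (h : ∀ p, Sx X p → Sx X (p + 1) →₀ ℂ),
      (∀ p, Equi G (b (p + 1))) ∧ (∀ p, Equi G (h p)) ∧
      (∀ p l, lc dS (b (p + 1) l) = lc (b p) (bdL ℂ l)) ∧ (∃ s, b 0 [] = single s 1) ∧
      (∀ s, h 0 s = 0) ∧ ∀ p s, lc dS (h (p + 1) s) =
        single s 1 - lc (b (p + 1)) (T (lbl κ s)) - lc (h p) (dS s) := by
  obtain ⟨b₀, b₁, H₀, hb⟩ := st_zero (κ := κ) hT
  choose nb nh n1 n2 using fun p b b' h (H : St κ T p b b' h) => H.step hκ hT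
  let σ := fun p => {x : (List G → Sx X p →₀ ℂ) × (List G → Sx X (p + 1) →₀ ℂ) ×
    (Sx X p → Sx X (p + 1) →₀ ℂ) // St κ T p x.1 x.2.1 x.2.2}
  let f : ∀ p, σ p := fun p => Nat.rec ⟨(b₀, b₁, fun _ => 0), H₀⟩
    (fun p x => ⟨(x.1.2.1, nb _ _ _ _ x.2, nh _ _ _ _ x.2), n1 _ _ _ _ x.2⟩) p
  exact ⟨fun p => (f p).1.1, fun p => (f p).1.2.2, fun p => (f p).2.e1, fun p => (f p).2.e2,
    fun p => (f p).2.ch, hb, fun _ => rfl, fun p => n2 _ _ _ _ (f p).2⟩

theorem exists_htp (hκ : ∀ (g : G) x, κ (g • x) = g * κ x) (f : ∀ p, Sx X p → Sx X p →₀ ℂ)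
    (f1 : ∀ p, Equi G (f (p + 1))) (f2 : ∀ p s, lc dS (f (p + 1) s) = lc (f p) (dS s))
    (f0 : ∀ s, f 0 s = single s 1) : ∃ h : ∀ p, Sx X p → Sx X (p + 1) →₀ ℂ,
      (∀ p, Equi G (h p)) ∧ (∀ s, h 0 s = 0) ∧
      ∀ p s, lc dS (h (p + 1) s) = single s 1 - f (p + 1) s - lc (h p) (dS s) := by
  let P := fun p (h : Sx X p → Sx X (p + 1) →₀ ℂ) =>
    Equi G h ∧ ∀ s, lc dS (single s 1 - f (p + 1) s - lc h (dS s)) = 0
  have step : ∀ p h, P p h → ∃ h', P (p + 1) h' ∧
      ∀ s, lc dS (h' s) = single s 1 - f (p + 1) s - lc h (dS s) := fun p h H => by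
    obtain ⟨h', c1, c2, -⟩ := exists_equi (G := G) (D := fun _ : Sx X (p + 1) => True)
      (κ := fun s => κ (s (stdSimplex.vertex 0))) (fun _ _ _ => trivial) (fun g s _ => hκ g _)
      (P := fun s (w : Sx X (p + 2) →₀ ℂ) => lc dS w = single s 1 - f (p + 1) s - lc h (dS s))
      (fun g s w _ _ h => by
        rw [equi_dS.lc_act, h, f1 p g s, equi_dS g s, H.1.lc_act, map_sub, map_sub, act_single])
      fun s _ _ => sing_exact _ (H.2 s)
    refine ⟨h', ⟨c1, fun s => ?_⟩, fun s => c2 s trivial⟩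
    rw [map_sub, map_sub, lc_single, one_smul, f2, map_lc]
    simp only [c2 _ trivial]
    rw [lc_sub, lc_sub, lc_self, ← map_lc (lc h), dS_dS, map_zero]
    abel
  choose nh n1 n2 using step
  have H₀ : P 0 fun _ => 0 := ⟨equi_zero, fun s => by
    rw [lc_zero, sub_zero, map_sub, lc_single, one_smul, f2,
      show f 0 = fun s => single s 1 from funext f0, lc_self, sub_self]⟩
  let g : ∀ p, {h // P p h} := fun p => Nat.rec ⟨_, H₀⟩ (fun p x => ⟨_, n1 _ _ x.2⟩) p
  exact ⟨fun p => (g p).1, fun p => (g p).2.1, fun _ => rfl, fun p => n2 _ _ (g p).2⟩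

end Vale.Agent.N239X
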